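import Vale.Agent.P146.H205.N4M
import Vale.Agent.P146.H646.VaB

/-!
# The linear identity of the thermal amplitude when part of the modulated field is revealed (GGR)

Generic form, for any Gibbs system `GM μ S M0`. The modulated coordinates are `md i l` (site `i`,
level `l`), their energy is `cG l * (a * σ i)` with `a` the thermal amplitude, `I` is the indicator
of the region where the amplitude moves and `sg` the sign of the thermal variable. The only input
about the amplitude is `AIbp`, the integration by parts in the thermal variable for a fixed value of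
the Gaussian coordinates.

* `ggr_exact`: for every `φ` with partial derivatives `φ' i l` in the modulated coordinates,
  `∫ φ Z^x ((v n - c) ⟨T I a⟩ - (1-x) v ∑ i ⟨T I σ i⟩⟨a σ i⟩) + ∑ i l cG l ∫ (φ' i l) Z^x ⟨T I σ i⟩
    = lam ∫ φ Z^x ⟨T sg⟩`, `v = ∑ l (cG l)^2`.
* `ggr_ip`: the tested form for the defect `Va` of the linear identity, for a vector `Q` which
  depends on revealed coordinates, some of which may be modulated.
* `ggr_M`: the same for `Q j = cx K ⟨a τ j⟩`; the new term is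
  `v_rev / ((1-x) v n) * √(ex ∑ X i j ^ 2) * √(ex ∑ (cx K ⟨τ j I σ i⟩)^2)`, where `X i j` is the
  response of `Q j` to the modulated field at `i`.
-/

open MeasureTheory ProbabilityTheory Filter

namespace Vale.Agent.P146.H420B

open Vale.Agent.P157.Lv hiding Dep
open Vale.Agent.P146.H196 Vale.Agent.P146.H646 Vale.Agent.P146.H347 Vale.Agent.P146.H325

set_option linter.unusedSectionVars false

variable {ι s L J : Type} [Fintype ι] [DecidableEq ι] [Fintype s] [DecidableEq s] [Fintype L]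
  [DecidableEq L] [Fintype J] [DecidableEq J]
  {Ω : Type} [MeasurableSpace Ω] {μ : Measure Ω} {S : ι → Ω → ℝ} {M0 x : ℝ}
  {md : s → L → ι} {cG : L → ℝ} {σ : s → Ω → ℝ} {a I sg : Ω → ℝ} {lam c r0 : ℝ}

/-- the modulated coordinates of the system -/
structure MS (S : ι → Ω → ℝ) (md : s → L → ι) (cG : L → ℝ) (σ : s → Ω → ℝ) (a I sg : Ω → ℝ) :
    Prop where
  en : ∀ i l w, S (md i l) w = cG l * (a w * σ i w)
  bs : ∀ i, Bm (σ i)
  s2 : ∀ i w, σ i w ^ 2 = 1
  ba : Bm a
  bI : Bm I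
  I0 : ∀ w, 0 ≤ I w
  I1 : ∀ w, I w ≤ 1
  bg : Bm sg
  g2 : ∀ w, sg w ^ 2 = 1

/-- the integration by parts in the thermal variable, tested with `T` -/
def AIbp (μ : Measure Ω) (S : ι → Ω → ℝ) (md : s → L → ι) (cG : L → ℝ) (σ : s → Ω → ℝ)
    (a I sg : Ω → ℝ) (lam c : ℝ) (T : Ω → ℝ) : Prop :=
  ∀ u : ι → ℝ, (∑ i, ∑ l, u (md i l) * (cG l * avm μ 1 S (fun w => T w * I w * σ i w) u)) -
    c * avm μ 1 S (fun w => T w * I w * a w) u = lam * avm μ 1 S (fun w => T w * sg w) u

/-- the total variance of the modulated field -/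
noncomputable def vG (cG : L → ℝ) : ℝ := ∑ l, cG l ^ 2

/-- Gaussian integration by parts in one modulated coordinate -/
theorem stein_md (hG : GM μ S M0) (hM : MS S md cG σ a I sg) (x : ℝ) {T : Ω → ℝ} (bT : Bm T)
    {φ : (ι → ℝ) → ℝ} (hφ : EG φ) {i : s} {l : L} {φ1 : (ι → ℝ) → ℝ}
    (hd : PD (md i l) φ φ1) (hφ1 : EG φ1) :
    ∫ u, u (md i l) * (φ u * (Zxm μ 1 S x u * avm μ 1 S (fun w => T w * I w * σ i w) u))
        ∂(gI ι) =
      (∫ u, φ u * (Zxm μ 1 S x u * (cG l * avm μ 1 S (fun w => T w * I w * a w) u -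
          (1 - x) * (cG l * (avm μ 1 S (fun w => T w * I w * σ i w) u *
            avm μ 1 S (fun w => a w * σ i w) u)))) ∂(gI ι)) +
      ∫ u, φ1 u * (Zxm μ 1 S x u * avm μ 1 S (fun w => T w * I w * σ i w) u) ∂(gI ι) := by
  have bf : Bm fun w => T w * I w * σ i w := (bT.mul hM.bI).mul (hM.bs i)
  obtain ⟨F2, hC⟩ := hG.c2_Zav 1 x bf
  have h3 := hd.mul (hC.pd0 (md i l))
  have e1 : EG fun u : ι → ℝ => φ u * (Zxm μ 1 S x u *
      avm μ 1 S (fun w => T w * I w * σ i w) u) := hφ.mul hC.eg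
  have e2 := (hφ1.mul hC.eg).add (hφ.mul (hC.eg1 (md i l)))
  have h4 := h3.stein e1 e2
  rw [h4]
  have a1 : ∀ u, avm μ 1 S (fun w => T w * I w * σ i w * S (md i l) w) u =
      cG l * avm μ 1 S (fun w => T w * I w * a w) u := by
    intro u
    rw [← H196.av_mul]
    congr 1
    funext w
    rw [hM.en]
    have := hM.s2 i w
    linear_combination (T w * I w * cG l * a w) * this
  have a2 : ∀ u, avm μ 1 S (S (md i l)) u = cG l * avm μ 1 S (fun w => a w * σ i w) u := by
    intro u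
    rw [← H196.av_mul]
    congr 1
    funext w
    rw [hM.en]
  have i1 : Integrable (fun u => φ u * (Zxm μ 1 S x u *
      (cG l * avm μ 1 S (fun w => T w * I w * a w) u -
          (1 - x) * (cG l * (avm μ 1 S (fun w => T w * I w * σ i w) u *
            avm μ 1 S (fun w => a w * σ i w) u))))) (gI ι) :=
    (hφ.mul ((hG.eg_Zx 1 x).mul (((hG.eg_av 1 ((bT.mul hM.bI).mul hM.ba)).const_mul (cG l)).sub
      (EG.const_mul (1 - x) (EG.const_mul (cG l) ((hG.eg_av 1 bf).mul
        (hG.eg_av 1 (hM.ba.mul (hM.bs i))))))))).integrable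
  have i2 : Integrable (fun u => φ1 u * (Zxm μ 1 S x u *
      avm μ 1 S (fun w => T w * I w * σ i w) u)) (gI ι) := (hφ1.mul hC.eg).integrable
  rw [← integral_add i1 i2]
  refine integral_congr_ae (Eventually.of_forall fun u => ?_)
  simp only [a1, a2]
  ring

/-- **the exact identity with revealed modulated coordinates** -/
theorem ggr_exact (hG : GM μ S M0) (hM : MS S md cG σ a I sg) (x : ℝ) {T : Ω → ℝ} (bT : Bm T)
    (hT : AIbp μ S md cG σ a I sg lam c T) {φ : (ι → ℝ) → ℝ} (hφ : EG φ)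
    {φ1 : s → L → (ι → ℝ) → ℝ} (hd : ∀ i l, PD (md i l) φ (φ1 i l)) (hφ1 : ∀ i l, EG (φ1 i l)) :
    (∫ u, φ u * (Zxm μ 1 S x u * ((vG cG * Fintype.card s - c) *
          avm μ 1 S (fun w => T w * I w * a w) u -
        (1 - x) * vG cG * ∑ i, avm μ 1 S (fun w => T w * I w * σ i w) u *
          avm μ 1 S (fun w => a w * σ i w) u)) ∂(gI ι)) +
      ∑ i, ∑ l, cG l * ∫ u, φ1 i l u * (Zxm μ 1 S x u *
        avm μ 1 S (fun w => T w * I w * σ i w) u) ∂(gI ι) =
      lam * ∫ u, φ u * (Zxm μ 1 S x u * avm μ 1 S (fun w => T w * sg w) u) ∂(gI ι) := by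
  have bTI : Bm fun w => T w * I w := bT.mul hM.bI
  have bf : ∀ i, Bm fun w => T w * I w * σ i w := fun i => bTI.mul (hM.bs i)
  have bal : Bm fun w => T w * I w * a w := bTI.mul hM.ba
  have bas : ∀ i, Bm fun w => a w * σ i w := fun i => hM.ba.mul (hM.bs i)
  have eZ := hG.eg_Zx 1 x
  set P : s → (ι → ℝ) → ℝ := fun i => avm μ 1 S (fun w => T w * I w * σ i w) with hP
  set A : (ι → ℝ) → ℝ := avm μ 1 S (fun w => T w * I w * a w) with hA
  set B : s → (ι → ℝ) → ℝ := fun i => avm μ 1 S (fun w => a w * σ i w) with hB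
  have eP : ∀ i, EG (P i) := fun i => hG.eg_av 1 (bf i)
  have eA : EG A := hG.eg_av 1 bal
  have eB : ∀ i, EG (B i) := fun i => hG.eg_av 1 (bas i)
  rw [← integral_const_mul]
  have e1 : ∫ u, lam * (φ u * (Zxm μ 1 S x u * avm μ 1 S (fun w => T w * sg w) u)) ∂(gI ι) =
      ∫ u, ((∑ i, ∑ l, cG l * (u (md i l) * (φ u * (Zxm μ 1 S x u * P i u)))) -
        c * (φ u * (Zxm μ 1 S x u * A u))) ∂(gI ι) := by
    refine integral_congr_ae (Eventually.of_forall fun u => ?_)
    simp only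
    have h1 := hT u
    have h2 : lam * (φ u * (Zxm μ 1 S x u * avm μ 1 S (fun w => T w * sg w) u)) =
        φ u * (Zxm μ 1 S x u * (lam * avm μ 1 S (fun w => T w * sg w) u)) := by ring
    rw [h2, ← h1, mul_sub, mul_sub, Finset.mul_sum, Finset.mul_sum]
    congr 1
    · refine Finset.sum_congr rfl fun i _ => ?_
      rw [Finset.mul_sum, Finset.mul_sum]
      exact Finset.sum_congr rfl fun l _ => by simp only [hP]; ring
    · simp only [hA]; ring
  have i1 : ∀ i l, Integrable (fun u : ι → ℝ => cG l * (u (md i l) * (φ u *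
      (Zxm μ 1 S x u * P i u)))) (gI ι) := fun i l =>
    (EG.const_mul _ ((EG.coord (md i l)).mul (hφ.mul (eZ.mul (eP i))))).integrable
  have i2 : Integrable (fun u : ι → ℝ => c * (φ u * (Zxm μ 1 S x u * A u))) (gI ι) :=
    ((hφ.mul (eZ.mul eA)).const_mul c).integrable
  rw [e1, integral_sub (integrable_finsetSum _ fun i _ => integrable_finsetSum _ fun l _ => i1 i l)
    i2, integral_finsetSum _ fun i _ => integrable_finsetSum _ fun l _ => i1 i l]
  have e2 : ∀ i, ∫ u, ∑ l, cG l * (u (md i l) * (φ u * (Zxm μ 1 S x u * P i u))) ∂(gI ι) =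
      ∑ l, cG l * ((∫ u, φ u * (Zxm μ 1 S x u * (cG l * A u - (1 - x) * (cG l *
        (P i u * B i u)))) ∂(gI ι)) + ∫ u, φ1 i l u * (Zxm μ 1 S x u * P i u) ∂(gI ι)) := by
    intro i
    rw [integral_finsetSum _ fun l _ => i1 i l]
    refine Finset.sum_congr rfl fun l _ => ?_
    rw [integral_const_mul, stein_md hG hM x bT hφ (hd i l) (hφ1 i l)]
  rw [Finset.sum_congr rfl fun i _ => e2 i]
  have i3 : ∀ i l, Integrable (fun u : ι → ℝ => φ u * (Zxm μ 1 S x u * (cG l * A u -
      (1 - x) * (cG l * (P i u * B i u))))) (gI ι) := fun i l =>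
    (hφ.mul (eZ.mul ((eA.const_mul (cG l)).sub (EG.const_mul (1 - x) (EG.const_mul (cG l)
      ((eP i).mul (eB i))))))).integrable
  have e3 : ∑ i, ∑ l, cG l * ((∫ u, φ u * (Zxm μ 1 S x u * (cG l * A u - (1 - x) * (cG l *
        (P i u * B i u)))) ∂(gI ι)) + ∫ u, φ1 i l u * (Zxm μ 1 S x u * P i u) ∂(gI ι)) =
      (∫ u, ∑ i, ∑ l, cG l * (φ u * (Zxm μ 1 S x u * (cG l * A u - (1 - x) * (cG l *
        (P i u * B i u))))) ∂(gI ι)) +
      ∑ i, ∑ l, cG l * ∫ u, φ1 i l u * (Zxm μ 1 S x u * P i u) ∂(gI ι) := by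
    rw [integral_finsetSum _ fun i _ => integrable_finsetSum _ fun l _ => (i3 i l).const_mul _,
      ← Finset.sum_add_distrib]
    refine Finset.sum_congr rfl fun i _ => ?_
    rw [integral_finsetSum _ fun l _ => (i3 i l).const_mul _, ← Finset.sum_add_distrib]
    refine Finset.sum_congr rfl fun l _ => ?_
    rw [integral_const_mul]
    ring
  rw [e3]
  have e4 : ∫ u, φ u * (Zxm μ 1 S x u * ((vG cG * Fintype.card s - c) * A u -
        (1 - x) * vG cG * ∑ i, P i u * B i u)) ∂(gI ι) =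
      (∫ u, ∑ i, ∑ l, cG l * (φ u * (Zxm μ 1 S x u * (cG l * A u - (1 - x) * (cG l *
        (P i u * B i u))))) ∂(gI ι)) - ∫ u, c * (φ u * (Zxm μ 1 S x u * A u)) ∂(gI ι) := by
    rw [← integral_sub (integrable_finsetSum _ fun i _ => integrable_finsetSum _ fun l _ =>
      (i3 i l).const_mul _) i2]
    refine integral_congr_ae (Eventually.of_forall fun u => ?_)
    simp only
    have f1 : ∀ i, ∑ l, cG l * (φ u * (Zxm μ 1 S x u * (cG l * A u - (1 - x) * (cG l *
        (P i u * B i u))))) = vG cG * (φ u * (Zxm μ 1 S x u * (A u - (1 - x) *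
        (P i u * B i u)))) := by
      intro i
      unfold vG
      rw [Finset.sum_mul]
      exact Finset.sum_congr rfl fun l _ => by ring
    rw [Finset.sum_congr rfl fun i _ => f1 i]
    have f2 : ∑ i, vG cG * (φ u * (Zxm μ 1 S x u * (A u - (1 - x) * (P i u * B i u)))) =
        vG cG * (φ u * (Zxm μ 1 S x u * (Fintype.card s * A u - (1 - x) * ∑ i, P i u * B i u)))
        := by
      rw [← Finset.mul_sum, ← Finset.mul_sum, ← Finset.mul_sum, Finset.sum_sub_distrib,
        Finset.sum_const, Finset.card_univ, nsmul_eq_mul, Finset.mul_sum]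
    rw [f2]
    ring
  rw [e4]
  ring

end Vale.Agent.P146.H420B
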