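import Mathlib
import Vale.Agent.P146.Bd3.B5

/-!
# P146: the lower bound of the exponential moments with a field at the level of the disorder

The scheme of `Bd3.B5` with a field of the strength `w` at the level `d` on every site.
-/

set_option linter.all false

open MeasureTheory ProbabilityTheory Filter Topology

namespace Vale.Agent.P146.Ub.Ld.F4

set_option linter.unusedSectionVars false

open Vale.Agent.P157 Vale.Agent.P157.Lv Vale.Agent.P157.Lv.Sy
open Vale.Agent.P157.Par (Path Exponents incr spinPart)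
open Vale.Agent.P146 (Pair freeEnergy disorder)
open Vale.Agent.P146.Sk (PSK)

variable {n K N d : ℕ} {m s R : ℕ → ℝ} {β θ w : ℝ}

/-- the strength `w` at the level `d` only -/
noncomputable def kd (d : ℕ) (w : ℝ) : ℕ → ℝ := fun l => if l = d then w else 0

/-- the cavity field and the kept field of the new spin -/
noncomputable def cvf (N d : ℕ) (γ w : ℝ) : (Fin n → Bool) → RI n K → ℝ :=
  cav N γ + nfd N (kd d w)

/-- the coefficients of the interpolating systems -/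
noncomputable def tcf (β : ℝ) (N : ℕ) (s R : ℕ → ℝ) (d : ℕ) (w θ : ℝ) :
    (Fin n → Bool) → RI n K → ℝ :=
  ith (sc β N s) (tre N β R) (cvf N d (β / √((N + 1 : ℕ) : ℝ)) w) θ

/-- the interpolating systems -/
noncomputable def SF (n : ℕ) (K d : ℕ) (m : ℕ → ℝ) (β : ℝ) (N : ℕ) (s R : ℕ → ℝ) (w θ : ℝ) :
    Sy (RI n K) (Fin n → Bool) := ls (rlv d) K m (lc n) (tcf β N s R d w θ)

lemma cvf_a (γ : ℝ) (x : Fin n → Bool) (p : Pair n) :
    cvf (K := K) N d γ w x (Sum.inl p) = cav (K := K) N γ x (Sum.inl p) := by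
  unfold cvf
  simp only [Pi.add_apply, nfd_a, add_zero]

lemma cvf_b (γ : ℝ) (x : Fin n → Bool) (p : Fin (K + 1) × Fin n) :
    cvf (K := K) N d γ w x (Sum.inr (Sum.inl p)) =
      if (p.2 : ℕ) = N then kd d w p.1 * spin x p.2 else 0 := by
  unfold cvf
  simp only [Pi.add_apply, nfd_b, cav_b, zero_add]

lemma cvf_c (γ : ℝ) (x : Fin n → Bool) (l : Fin (K + 1)) :
    cvf (K := K) N d γ w x (Sum.inr (Sum.inr l)) = 0 := by
  unfold cvf
  simp only [Pi.add_apply, nfd_c, cav_b, zero_add]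

/-- the field of the new spin at the level `d` is kept, the others are dropped -/
theorem AN_succ_geF (hd : d ≤ K) (hN : N + 1 ≤ n) (hm : Exponents K m) (β : ℝ) (s : ℕ → ℝ) :
    (ls (rlv d) K m (lc n) (sc β N s + cvf N d (β / √((N + 1 : ℕ) : ℝ)) (s d)) :
      Sy (RI n K) (Fin n → Bool)).fe ≤ AN n K d m β (N + 1) s := by
  unfold AN SN
  have e0 : (st β (N + 1) s : (Fin n → Bool) → RI n K → ℝ) =
      (sc β N s + cvf N d (β / √((N + 1 : ℕ) : ℝ)) (s d)) +
        nfd N (fun l => if l = d then 0 else s l) := by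
    rw [st_succ hN]
    funext x e
    rcases e with p | p | l
    · show _ + nfd N s x (Sum.inl p) = (_ + cvf N d _ (s d) x (Sum.inl p)) +
        nfd N (fun l => if l = d then 0 else s l) x (Sum.inl p)
      rw [cvf_a, nfd_a, nfd_a]
      rfl
    · show (sc β N s x (Sum.inr (Sum.inl p)) + cav N _ x (Sum.inr (Sum.inl p))) +
        nfd N s x (Sum.inr (Sum.inl p)) = (sc β N s x (Sum.inr (Sum.inl p)) +
          cvf N d _ (s d) x (Sum.inr (Sum.inl p))) +
        nfd N (fun l => if l = d then 0 else s l) x (Sum.inr (Sum.inl p))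
      rw [cvf_b, nfd_b, nfd_b, cav_b]
      unfold kd
      by_cases h : (p.2 : ℕ) = N
      · rw [if_pos h, if_pos h, if_pos h]
        by_cases h2 : (p.1 : ℕ) = d
        · rw [if_pos h2, if_pos h2, h2]
          ring
        · rw [if_neg h2, if_neg h2]
          ring
      · rw [if_neg h, if_neg h, if_neg h]
    · show (sc β N s x (Sum.inr (Sum.inr l)) + cav N _ x (Sum.inr (Sum.inr l))) +
        nfd N s x (Sum.inr (Sum.inr l)) = (sc β N s x (Sum.inr (Sum.inr l)) +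
          cvf N d _ (s d) x (Sum.inr (Sum.inr l))) +
        nfd N (fun l => if l = d then 0 else s l) x (Sum.inr (Sum.inr l))
      rw [cvf_c, nfd_c, nfd_c, cav_b]
  rw [e0]
  refine ls_le_add hm (rlv_le hd) (lc n) ?_
  intro e x x'
  rcases e with p | p | l
  · rw [nfd_a, zero_mul]
  · rw [nfd_b]
    by_cases h : (p.2 : ℕ) = N
    · rw [if_pos h]
      have h3 : sc (K := K) β N s x' (Sum.inr (Sum.inl p)) = 0 := by
        show dsk N _ x' (Sum.inr (Sum.inl p)) + fd N s x' (Sum.inr (Sum.inl p)) = 0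
        rw [dsk_b, fd_b, if_neg (by omega), add_zero]
      show (if (p.1 : ℕ) = d then 0 else s p.1) * spin x p.2 *
        (sc (K := K) β N s x' (Sum.inr (Sum.inl p)) +
          cvf N d _ (s d) x' (Sum.inr (Sum.inl p))) = 0
      rw [h3, cvf_b, if_pos h, zero_add]
      unfold kd
      by_cases h2 : (p.1 : ℕ) = d
      · rw [if_pos h2]
        ring
      · rw [if_neg h2, if_neg h2]
        ring
    · rw [if_neg h, zero_mul]
  · rw [nfd_c, zero_mul]

/-! ### Disjointness and covariances -/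

lemma dj_cav_nfd (γ : ℝ) (s' : ℕ → ℝ) (e : RI n K) (x x' : Fin n → Bool) :
    cav N γ x e * nfd N s' x' e = 0 := by
  rcases e with p | p | l <;> simp [cav_a, cav_b, nfd_a, nfd_b, nfd_c]

theorem dj_tre_cvf (γ γ' : ℝ) (e : RI n K) (x x' : Fin n → Bool) :
    tre N γ R x e * cvf N d γ' w x' e = 0 := by
  rcases e with p | p | l
  · simp [tre_a]
  · simp [tre_b]
  · simp [cvf_c]

theorem dj_cvf_sc (γ : ℝ) (e : RI n K) (x x' : Fin n → Bool) :
    cvf N d γ w x e * sc β N s x' e = 0 := by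
  rcases e with p | p | l
  · rw [cvf_a]
    exact dj_cav_sc γ (Sum.inl p) x x'
  · rw [cvf_b]
    by_cases h : (p.2 : ℕ) = N
    · have h2 : ¬ (p.2 : ℕ) < N := by omega
      simp [sc, dsk_b, fd_b, h2]
    · rw [if_neg h, zero_mul]
  · rw [cvf_c, zero_mul]

lemma sum_kd (hd : d ≤ K) (hN : N < n) (l : ℕ) (x x' : Fin n → Bool) :
    ∑ e : RI n K, (if rlv d e ≤ l then nfd N (kd d w) x e * nfd N (kd d w) x' e else 0) =
      if d ≤ l then w ^ 2 * (sp N x * sp N x') else 0 := by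
  rw [Fintype.sum_sum_type, Fintype.sum_sum_type]
  have h0 : ∑ e : Pair n, (if rlv d (Sum.inl e : RI n K) ≤ l then
      nfd (K := K) N (kd d w) x (Sum.inl e) * nfd (K := K) N (kd d w) x' (Sum.inl e) else 0) = 0 :=
    Finset.sum_eq_zero fun e _ => by simp [nfd_a]
  have h2 : ∑ i : Fin (K + 1), (if rlv d (Sum.inr (Sum.inr i) : RI n K) ≤ l then
      nfd N (kd d w) x (Sum.inr (Sum.inr i) : RI n K) *
        nfd N (kd d w) x' (Sum.inr (Sum.inr i) : RI n K) else 0) = 0 :=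
    Finset.sum_eq_zero fun e _ => by simp [nfd_c]
  rw [h0, h2, zero_add, add_zero]
  rw [Finset.sum_eq_single ((⟨d, by omega⟩, ⟨N, hN⟩) : Fin (K + 1) × Fin n)]
  · have e1 : rlv d (Sum.inr (Sum.inl ((⟨d, by omega⟩, ⟨N, hN⟩) : Fin (K + 1) × Fin n)) :
        RI n K) = d := rfl
    rw [e1]
    simp only [nfd_b, kd, if_true]
    rw [sp_eq hN, sp_eq hN]
    split_ifs
    · ring
    · rfl
  · intro p _ hp
    by_cases h : (p.2 : ℕ) = N
    · have h1 : (p.1 : ℕ) ≠ d := by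
        intro h1
        refine hp (Prod.ext (Fin.ext h1) (Fin.ext h))
      simp only [nfd_b, kd]
      rw [if_pos h, if_pos h, if_neg h1]
      simp
    · simp only [nfd_b]
      rw [if_neg h]
      simp
  · intro h
    exact absurd (Finset.mem_univ _) h

lemma cv_cvf (hd : d ≤ K) (hN : N < n) (l : ℕ) (γ : ℝ) (x x' : Fin n → Bool) :
    cv (rlv d) l (cvf (K := K) N d γ w) (cvf N d γ w) x x' =
      cv (rlv d) l (cav (K := K) N γ) (cav N γ) x x' +
        if d ≤ l then w ^ 2 * (sp N x * sp N x') else 0 := by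
  rw [← sum_kd (w := w) hd hN l x x']
  unfold cv
  rw [← Finset.sum_add_distrib]
  refine Finset.sum_congr rfl fun e _ => ?_
  have h1 := dj_cav_nfd (N := N) γ (kd d w) e x x'
  have h2 := dj_cav_nfd (N := N) γ (kd d w) e x' x
  split_ifs
  · show (cav N γ x e + nfd N (kd d w) x e) * (cav N γ x' e + nfd N (kd d w) x' e) = _
    linear_combination h1 + h2
  · ring

lemma sum_cvf (hd : d ≤ K) (hN : N < n) (γ : ℝ) (x : Fin n → Bool) :
    ∑ e, cvf (K := K) N d γ w x e ^ 2 = γ ^ 2 * N + w ^ 2 := by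
  have h1 : ∀ e : RI n K, cvf (K := K) N d γ w x e ^ 2 = cav N γ x e ^ 2 +
      (if rlv d e ≤ K then nfd N (kd d w) x e * nfd N (kd d w) x e else 0) := by
    intro e
    rw [if_pos (rlv_le hd e)]
    have h := dj_cav_nfd (N := N) γ (kd d w) e x x
    show (cav N γ x e + nfd N (kd d w) x e) ^ 2 = _
    linear_combination 2 * h
  rw [Finset.sum_congr rfl fun e _ => h1 e, Finset.sum_add_distrib, sum_cav hN,
    sum_kd hd hN, if_pos hd]
  have := sp_sq hN x
  rw [sq] at this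
  rw [this]
  ring

/-! ### fields, perturbations, variances -/

theorem SF_fld (hd : d ≤ K) (hN : N ≤ n) (h0 : 0 < N) (hm : Exponents K m)
    (hs : ∀ l ≤ K, 0 ≤ s l) :
    Fld (SF n K d m β N s R w θ) (fun e _ x => tcf β N s R d w θ x e) (ph hN) (zc hN) s := by
  refine r_fld hd hN h0 hm hs (lc n) fun x p hp => ?_
  show (dsk N _ x (Sum.inr (Sum.inl p)) + fd N s x (Sum.inr (Sum.inl p))) +
    (Real.sin θ * tre N β R x (Sum.inr (Sum.inl p)) +
      Real.cos θ * cvf N d _ w x (Sum.inr (Sum.inl p))) = _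
  rw [dsk_b, fd_b, if_pos hp, tre_b, cvf_b, if_neg (show ¬ (p.2 : ℕ) = N by omega), zero_add,
    mul_zero, mul_zero, add_zero, add_zero]

theorem SF_pt (hN : N ≤ n) {j : ℕ} (hj : j ≤ K) (t : ℝ) :
    (SF n K d m β N s R w θ).pt (gx hN j) t =
      SF n K d m β N (Function.update s j (s j + t)) R w θ := by
  unfold SF ls Sy.pt Sy.wH
  congr 1
  funext z x
  show lin (tcf β N s R d w θ x) z + lc n + t * gx hN j z x =
    lin (tcf β N _ R d w θ x) z + lc n
  unfold tcf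
  rw [lin_ith, lin_ith]
  unfold sc
  simp only [Pi.add_apply, rr_lin]
  rw [rr_update hN hj]
  ring

/-- the coefficients of the level zero -/
lemma SF_sum (hd1 : 1 ≤ d) (hN : N + 1 ≤ n) (h0 : 0 < N) (hs : |s 0| ≤ 2) (hR0 : R 0 = 0)
    (x : Fin n → Bool) :
    ∑ e : RI n K, (if rlv d e = 0 then tcf β N s R d w θ x e ^ 2 else 0) ≤
      (2 * β ^ 2 + 4) * N := by
  have hN0 : (0 : ℝ) < N := by exact_mod_cast h0
  have hlt : N < n := hN
  have h1 : ∀ e : RI n K, (if rlv d e = 0 then tcf β N s R d w θ x e ^ 2 else 0) ≤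
      (if rlev e = 0 then (dsk N (0 : ℝ) x e + fd N s x e) ^ 2 else 0) := by
    intro e
    rcases e with p | p | l
    · rw [if_neg (show ¬ rlv d (Sum.inl p : RI n K) = 0 from fun h => by
        have h' : d = 0 := h
        omega)]
      split_ifs
      · positivity
      · exact le_rfl
    · by_cases h : (p.1 : ℕ) = 0
      · rw [if_pos (show rlv d (Sum.inr (Sum.inl p) : RI n K) = 0 from h),
          if_pos (show rlev (Sum.inr (Sum.inl p) : RI n K) = 0 from h)]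
        refine le_of_eq ?_
        show ((dsk N _ x (Sum.inr (Sum.inl p)) + fd N s x (Sum.inr (Sum.inl p))) +
          (Real.sin θ * tre N β R x (Sum.inr (Sum.inl p)) +
            Real.cos θ * cvf N d _ w x (Sum.inr (Sum.inl p)))) ^ 2 = _
        have h2 : kd d w p.1 = 0 := by
          unfold kd
          rw [if_neg (by omega)]
        rw [dsk_b, dsk_b, tre_b, cvf_b, h2]
        simp
      · rw [if_neg (show ¬ rlv d (Sum.inr (Sum.inl p) : RI n K) = 0 from h),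
          if_neg (show ¬ rlev (Sum.inr (Sum.inl p) : RI n K) = 0 from h)]
    · by_cases h : (l : ℕ) = 0
      · rw [if_pos (show rlv d (Sum.inr (Sum.inr l) : RI n K) = 0 from h),
          if_pos (show rlev (Sum.inr (Sum.inr l) : RI n K) = 0 from h)]
        refine le_of_eq ?_
        show ((dsk N _ x (Sum.inr (Sum.inr l)) + fd N s x (Sum.inr (Sum.inr l))) +
          (Real.sin θ * tre N β R x (Sum.inr (Sum.inr l)) +
            Real.cos θ * cvf N d _ w x (Sum.inr (Sum.inr l)))) ^ 2 = _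
        have h2 : incr R (l : ℕ) = 0 := by
          rw [h]
          exact hR0
        rw [dsk_b, dsk_b, tre_c, cvf_c, fd_c, h2]
        simp
      · rw [if_neg (show ¬ rlv d (Sum.inr (Sum.inr l) : RI n K) = 0 from h),
          if_neg (show ¬ rlev (Sum.inr (Sum.inr l) : RI n K) = 0 from h)]
  refine (Finset.sum_le_sum fun e _ => h1 e).trans ?_
  rw [rr_sc hlt.le]
  have h2 : s 0 ^ 2 ≤ 4 := by
    have := sq_le_sq' (by linarith [abs_nonneg (s 0)]) hs
    rw [sq_abs] at this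
    linarith
  have h3 : s 0 ^ 2 * N ≤ 4 * N := mul_le_mul_of_nonneg_right h2 hN0.le
  have h4 : 0 ≤ β ^ 2 * (N : ℝ) := by positivity
  nlinarith only [h3, h4]

theorem SF_var (hd1 : 1 ≤ d) (hd : d ≤ K) (hN : N + 1 ≤ n) (h0 : 0 < N) (hm : Exponents K m)
    (hs : |s 0| ≤ 2) (hR0 : R 0 = 0) :
    ∫ z, ((SF n K d m β N s R w θ).lg 0 z - (SF n K d m β N s R w θ).fe) ^ 2 ∂(gI (RI n K)) ≤
      2 * ((2 * β ^ 2 + 4) * N) :=
  ls_var hm (rlv_le hd) (lc n) fun x => SF_sum hd1 hN h0 hs hR0 x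

/-- comparison of the free energies; `β² R K ≤ c`, `β² + w² ≤ c` -/
theorem SF_cmp (hd : d ≤ K) (hN : N + 1 ≤ n) (h0 : 0 < N) (hm : Exponents K m)
    (hR : Path K R) {c : ℝ} (hR1 : β ^ 2 * R K ≤ c) (hw : β ^ 2 + w ^ 2 ≤ c) (s : ℕ → ℝ)
    (θ : ℝ) :
    |(SF n K d m β N s R w θ).fe - AN n K d m β N s| ≤ c / 2 := by
  have hN' : N ≤ n := by omega
  have hNn : N < n := by omega
  have hb2 : 0 ≤ β ^ 2 := sq_nonneg β
  obtain ⟨b, hb⟩ : ∃ b : (Fin n → Bool) → RI n K → ℝ, b = fun x e =>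
    Real.sin θ * tre N β R x e + Real.cos θ * cvf N d (β / √((N + 1 : ℕ) : ℝ)) w x e := ⟨_, rfl⟩
  have e1 : (tcf β N s R d w θ : (Fin n → Bool) → RI n K → ℝ) = sc β N s + b := by
    rw [hb]
    rfl
  have hdj : ∀ e x x', b x e * (sc β N s : (Fin n → Bool) → RI n K → ℝ) x' e = 0 := by
    intro e x x'
    have h1 := dj_tre_sc (N := N) (s := s) (β := β) (R := R) β e x x'
    have h2 := dj_cvf_sc (N := N) (s := s) (β := β) (d := d) (w := w)
      (β / √((N + 1 : ℕ) : ℝ)) e x x'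
    rw [hb]
    show (Real.sin θ * tre N β R x e + Real.cos θ * cvf N d (β / √((N + 1 : ℕ) : ℝ)) w x e) *
      sc β N s x' e = 0
    linear_combination Real.sin θ * h1 + Real.cos θ * h2
  have hV : ∀ x, ∑ e, b x e ^ 2 ≤ c := by
    intro x
    have h1 : ∀ e, b x e ^ 2 = Real.sin θ ^ 2 * tre N β R x e ^ 2 +
        Real.cos θ ^ 2 * cvf N d (β / √((N + 1 : ℕ) : ℝ)) w x e ^ 2 := by
      intro e
      have h2 := dj_tre_cvf (N := N) (R := R) (d := d) (w := w) β (β / √((N + 1 : ℕ) : ℝ)) e x x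
      rw [hb]
      show (Real.sin θ * tre N β R x e + Real.cos θ *
        cvf N d (β / √((N + 1 : ℕ) : ℝ)) w x e) ^ 2 = _
      linear_combination 2 * Real.sin θ * Real.cos θ * h2
    rw [Finset.sum_congr rfl fun e _ => h1 e, Finset.sum_add_distrib, ← Finset.mul_sum,
      ← Finset.mul_sum, sum_tre hNn β hR, sum_cvf hd hNn]
    have h3 : (β / √((N + 1 : ℕ) : ℝ)) ^ 2 * N ≤ β ^ 2 := by
      rw [div_pow, Real.sq_sqrt (by positivity), div_mul_eq_mul_div, div_le_iff₀ (by positivity)]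
      push_cast
      nlinarith
    have h5 := Real.sin_sq_add_cos_sq θ
    calc Real.sin θ ^ 2 * (β ^ 2 * R K) + Real.cos θ ^ 2 *
          ((β / √((N + 1 : ℕ) : ℝ)) ^ 2 * N + w ^ 2) ≤
          Real.sin θ ^ 2 * c + Real.cos θ ^ 2 * c :=
          add_le_add (mul_le_mul_of_nonneg_left hR1 (sq_nonneg _))
            (mul_le_mul_of_nonneg_left (by linarith) (sq_nonneg _))
      _ = c := by rw [← add_mul, h5, one_mul]
  have u1 := ls_add_le hm (rlv_le hd) (lc n) hdj hV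
  have u2 := ls_le_add hm (rlv_le hd) (lc n) hdj
  rw [← e1] at u1 u2
  have u3 := SC_le (n := n) (K := K) (β := β) hd hN' h0 hm s
  have u4 := SC_ge (n := n) (K := K) (β := β) hd hN' h0 hm s
  have u5 := (rs_q_mem (K := K) hd hN' h0 hm (lc n) (st (n := n) (K := K) β N s)).2
  have u6 : β ^ 2 / 4 * (1 - ∑ l ∈ Finset.range (K + 1), (m (l + 1) - m l) *
        (if d ≤ l then (SN n K d m β N s).pairEx l (fun x x' => Rov (ph hN') x x' ^ 2)
          else 0)) ≤ β ^ 2 / 4 :=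
    mul_le_of_le_one_right (by positivity) u5
  have hw2 : 0 ≤ w ^ 2 := sq_nonneg w
  unfold SF
  unfold SC at u3 u4
  rw [abs_le]
  constructor <;> linarith

/-! ### concentration -/

/-- the error of the concentration of the field `j` -/
noncomputable def ejF (n : ℕ) (K d : ℕ) (m : ℕ → ℝ) (β c : ℝ) (N : ℕ) (s : ℕ → ℝ) (t : ℝ)
    (j : ℕ) : ℝ :=
  1 / (N * t) * (2 * dl n K d m β N s t j + 3 * c + Real.log 2 / m 1 +
    3 * √(2 * ((2 * β ^ 2 + 4) * N)))

/-- the sum of the errors -/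
noncomputable def eeF (n : ℕ) (K d : ℕ) (m : ℕ → ℝ) (β c : ℝ) (N : ℕ) (s : ℕ → ℝ) (t : ℝ) : ℝ :=
  ∑ j ∈ Finset.range (K + 1), ejF n K d m β c N s t j

/-- (E) Concentration, uniformly in the path and the angle. -/
theorem SF_conc (hd1 : 1 ≤ d) (hd : d ≤ K) (hN : N + 1 ≤ n) (h0 : 0 < N) (hm : Exponents K m)
    (hR : Path K R) (hR0 : R 0 = 0) {c : ℝ} (hR1 : β ^ 2 * R K ≤ c) (hw : β ^ 2 + w ^ 2 ≤ c) (hs : ∀ l ≤ K, 0 ≤ s l) (hs1 : s 0 ≤ 1) {t : ℝ} (ht : 0 < t)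
    (ht1 : t ≤ 1) (θ : ℝ) {j : ℕ} (hj : j ≤ K) :
    (SF n K d m β N s R w θ).Ex (fun z x => |hz (ph (Nat.le_of_succ_le hN))
        (zc (Nat.le_of_succ_le hN)) j z x - (SN n K d m β N s).Ex (hz (ph (Nat.le_of_succ_le hN))
        (zc (Nat.le_of_succ_le hN)) j)|) ≤ ejF n K d m β c N s t j := by
  have hN' : N ≤ n := Nat.le_of_succ_le hN
  have hN0 : (0 : ℝ) < N := by exact_mod_cast h0
  have hReg : (SF n K d m β N s R w θ).Reg := rs_reg hd hm _ _
  have hRegt : ∀ t', ((SF n K d m β N s R w θ).pt (gx hN' j) t').Reg := by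
    intro t'
    rw [SF_pt hN' hj]
    exact rs_reg hd hm _ _
  have h1 := conc_abs hReg (nh_gx hN' j) hRegt (t := t) (F0 := AN n K d m β N s)
    (Fp := AN n K d m β N (Function.update s j (s j + t)))
    (Fm := AN n K d m β N (Function.update s j (s j - t)))
    (c₀ := (SN n K d m β N s).Ex (gx hN' j)) (B := c / 2)
    (V := 2 * ((2 * β ^ 2 + 4) * N)) ht
    (SF_cmp hd hN h0 hm hR hR1 hw s θ)
    (by rw [SF_pt hN' hj]; exact SF_cmp hd hN h0 hm hR hR1 hw _ θ)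
    (by
      rw [SF_pt hN' hj, ← sub_eq_add_neg]
      exact SF_cmp hd hN h0 hm hR hR1 hw _ θ)
    (AN_tangent hd hN' hm s hj t)
    (by
      have := AN_tangent (β := β) hd hN' hm s hj (-t)
      rw [← sub_eq_add_neg, neg_mul, ← sub_eq_add_neg] at this
      exact this)
    (by
      intro t' ht'
      rw [SF_pt hN' hj]
      exact SF_var hd1 hd hN h0 hm (rs_abs_update hs hs1 ht ht1 ht' j) hR0)
  have e1 : (SF n K d m β N s R w θ).Ex (fun z x => |hz (ph hN') (zc hN') j z x -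
      (SN n K d m β N s).Ex (hz (ph hN') (zc hN') j)|) =
      1 / N * (SF n K d m β N s R w θ).Ex (fun z x => |gx hN' j z x -
        (SN n K d m β N s).Ex (gx hN' j)|) := by
    rw [← Sy.Ex_const_mul]
    congr 1
    funext z x
    rw [rs_Ex_gx hN' h0, hz_eq_gx]
    have e2 : 1 / (N : ℝ) * gx hN' j z x - (SN n K d m β N s).Ex (hz (ph hN') (zc hN') j) =
        1 / N * (gx hN' j z x - N * (SN n K d m β N s).Ex (hz (ph hN') (zc hN') j)) := by
      field_simp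
    rw [e2, abs_mul, abs_of_pos (by positivity)]
  rw [e1]
  refine (mul_le_mul_of_nonneg_left h1 (by positivity)).trans (le_of_eq ?_)
  unfold ejF dl
  have e3 : (SF n K d m β N s R w θ).m 1 = m 1 := rfl
  rw [e3]
  field_simp
  ring


lemma ej_le_ejF {c : ℝ} (hc : β ^ 2 ≤ c) {t : ℝ} (ht : 0 < t) (j : ℕ) :
    ej n K d m β N s t j ≤ ejF n K d m β c N s t j := by
  unfold ej ejF
  have h0 : (0 : ℝ) ≤ 1 / (N * t) := by positivity
  exact mul_le_mul_of_nonneg_left (by linarith) h0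

lemma ejF_nonneg (hd1 : 1 ≤ d) (hd : d ≤ K) (hN : N ≤ n) (h0 : 0 < N) (hm : Exponents K m)
    (hs : ∀ l ≤ K, 0 ≤ s l) (hs1 : s 0 ≤ 1) {c : ℝ} (hc : β ^ 2 ≤ c) {t : ℝ} (ht : 0 < t)
    (ht1 : t ≤ 1) {j : ℕ} (hj : j ≤ K) : 0 ≤ ejF n K d m β c N s t j :=
  (rs_ej_nonneg hd1 hd hN h0 hm hs hs1 ht ht1 hj).trans (ej_le_ejF hc ht j)

lemma ejF_le (hd1 : 1 ≤ d) (hd : d ≤ K) (hN : N ≤ n) (h0 : 0 < N) (hm : Exponents K m)
    (hs : ∀ l ≤ K, 0 ≤ s l) (hs1 : s 0 ≤ 1) {c : ℝ} (hc : β ^ 2 ≤ c) {t : ℝ} (ht : 0 < t)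
    (ht1 : t ≤ 1) {j : ℕ} (hj : j ≤ K) :
    ejF n K d m β c N s t j ≤ eeF n K d m β c N s t := by
  unfold eeF
  exact Finset.single_le_sum (f := fun j => ejF n K d m β c N s t j)
    (fun i hi => ejF_nonneg hd1 hd hN h0 hm hs hs1 hc ht ht1
      (by have := Finset.mem_range.1 hi; omega)) (Finset.mem_range.2 (by omega))

lemma eeF_nonneg (hd1 : 1 ≤ d) (hd : d ≤ K) (hN : N ≤ n) (h0 : 0 < N) (hm : Exponents K m)
    (hs : ∀ l ≤ K, 0 ≤ s l) (hs1 : s 0 ≤ 1) {c : ℝ} (hc : β ^ 2 ≤ c) {t : ℝ} (ht : 0 < t)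
    (ht1 : t ≤ 1) : 0 ≤ eeF n K d m β c N s t :=
  Finset.sum_nonneg fun i hi => ejF_nonneg hd1 hd hN h0 hm hs hs1 hc ht ht1
    (by have := Finset.mem_range.1 hi; omega)

theorem SF_dev (hd1 : 1 ≤ d) (hd : d ≤ K) (hN : N + 1 ≤ n) (h0 : 0 < N)
    (hR : Path K R) (hR0 : R 0 = 0) {c : ℝ} (hR1 : β ^ 2 * R K ≤ c) (hw : β ^ 2 + w ^ 2 ≤ c)
    {σ : ℝ} (hσ : 0 < σ) (hs : ∀ l ≤ K, σ ≤ s l)
    (hs1 : s 0 ≤ 1) {t : ℝ} (ht : 0 < t) (ht1 : t ≤ 1) (θ : ℝ) :
    ∑ l ∈ Finset.range (K + 1), (me K (l + 1) - me K l) *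
      (SF n K d (me K) β N s R w θ).pairEx l (fun x x' =>
        |Rov (ph (Nat.le_of_succ_le hN)) x x' -
        stR (SN n K d (me K) β N s) (ph (Nat.le_of_succ_le hN)) l|) ≤
      wE K σ (eeF n K d (me K) β c N s t) := by
  have hs0 : ∀ l ≤ K, 0 ≤ s l := fun l hl => hσ.le.trans (hs l hl)
  have hN' : N ≤ n := Nat.le_of_succ_le hN
  have hc : β ^ 2 ≤ c := by
    have := sq_nonneg w
    linarith
  exact rs_dev hd hN' h0 (SF_fld (β := β) (R := R) (w := w) (θ := θ) hd hN' h0 (me_exp K) hs0)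
    hσ hs (eeF_nonneg hd1 hd hN' h0 (me_exp K) hs0 hs1 hc ht ht1)
    (fun j hj => (SF_conc hd1 hd hN h0 (me_exp K) hR hR0 hR1 hw hs0 hs1 ht ht1 θ hj).trans
      (ejF_le hd1 hd hN' h0 (me_exp K) hs0 hs1 hc ht ht1 hj))

theorem SN_devF (hd1 : 1 ≤ d) (hd : d ≤ K) (hN : N ≤ n) (h0 : 0 < N) {c : ℝ} (hc : β ^ 2 ≤ c)
    {σ : ℝ} (hσ : 0 < σ) (hs : ∀ l ≤ K, σ ≤ s l)
    (hs1 : s 0 ≤ 1) {t : ℝ} (ht : 0 < t) (ht1 : t ≤ 1) :
    ∑ l ∈ Finset.range (K + 1), (me K (l + 1) - me K l) *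
      (SN n K d (me K) β N s).pairEx l (fun x x' => |Rov (ph hN) x x' -
        stR (SN n K d (me K) β N s) (ph hN) l|) ≤
      wE K σ (eeF n K d (me K) β c N s t) := by
  have hs0 : ∀ l ≤ K, 0 ≤ s l := fun l hl => hσ.le.trans (hs l hl)
  exact rs_dev hd hN h0 (SN_fld (β := β) hd hN h0 (me_exp K) hs0) hσ hs
    (eeF_nonneg hd1 hd hN h0 (me_exp K) hs0 hs1 hc ht ht1)
    (fun j hj => (SN_conc hd1 hd hN h0 (me_exp K) hs0 hs1 ht ht1 hj).trans
      ((ej_le_ejF hc ht j).trans (ejF_le hd1 hd hN h0 (me_exp K) hs0 hs1 hc ht ht1 hj)))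

/-- the value with the field `V` at the levels `l ≥ d` -/
noncomputable def PSV (β : ℝ) (K d : ℕ) (m : ℕ → ℝ) (V : ℝ) (q : ℕ → ℝ) : ℝ :=
  β ^ 2 / 4 * (1 + ∑ i ∈ Finset.range (K + 1), (m (i + 1) - m i) * q i ^ 2) +
    spinPart K m (fun l => if l < d then 0 else β ^ 2 * q l + V) + V / 2

/-- the interpolation between the tree field and the cavity field -/
lemma stepF_int (hd : d ≤ K) (hN : N + 1 ≤ n) (h0 : 0 < N) {R R₀ P : ℕ → ℝ} {W : ℝ}
    (hRge : ∀ l, d ≤ l → R l = R₀ l)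
    (hPlt : ∀ l, l < d → P l = 0) (hPge : ∀ l, d ≤ l → β ^ 2 * P l = β ^ 2 * R l + w ^ 2)
    (hP : Path K P) (hPK : β ^ 2 * P K = β ^ 2 + w ^ 2)
    (hdev : ∀ θ, ∑ l ∈ Finset.range (K + 1), (me K (l + 1) - me K l) *
      (SF n K d (me K) β N s P w θ).pairEx l (fun x x' =>
        |Rov (ph (Nat.le_of_succ_le hN)) x x' - R₀ l|) ≤ W) :
    (ls (rlv d) K (me K) (lc n) (sc (n := n) (K := K) β N s + tre N β P) :
        Sy (RI n K) (Fin n → Bool)).fe -
      (ls (rlv d) K (me K) (lc n) (sc (n := n) (K := K) β N s +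
        cvf N d (β / √((N + 1 : ℕ) : ℝ)) w) : Sy (RI n K) (Fin n → Bool)).fe ≤
      (2 * (β ^ 2 / ((N + 1 : ℕ) : ℝ)) + β ^ 2 * W) / 2 := by
  have hN' : N ≤ n := Nat.le_of_succ_le hN
  have hNn : N < n := hN
  have hm := me_exp K
  have hb2 : 0 ≤ β ^ 2 := sq_nonneg β
  have hN1 : (0 : ℝ) < ((N + 1 : ℕ) : ℝ) := by positivity
  obtain ⟨γ, hγ⟩ : ∃ γ, γ = β / √((N + 1 : ℕ) : ℝ) := ⟨_, rfl⟩
  have hγ2 : γ ^ 2 = β ^ 2 / ((N + 1 : ℕ) : ℝ) := by
    rw [hγ, div_pow, Real.sq_sqrt hN1.le]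
  have hγN : β ^ 2 - γ ^ 2 * N = β ^ 2 / ((N + 1 : ℕ) : ℝ) := by
    rw [hγ2]
    field_simp
    push_cast
    ring
  have hsum := rs_sum_p hm
  rw [← hγ]
  refine ls_interp (X := Fin n → Bool) (a := sc (n := n) (K := K) β N s) (α := tre N β P)
    (β := cvf N d γ w) hm (rlv_le hd) (lc n) (B := 2 * (β ^ 2 / ((N + 1 : ℕ) : ℝ)) + β ^ 2 * W)
    (dj_tre_cvf β γ) (dj_tre_sc β) (dj_cvf_sc γ) ?_
  intro θ _ _
  have eS : ls (rlv d) K (me K) (lc n) (ith (sc (n := n) (K := K) β N s) (tre N β P)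
      (cvf N d γ w) θ) =
      SF n K d (me K) β N s P w θ := by
    rw [hγ]; rfl
  rw [eS]
  have hReg : (SF n K d (me K) β N s P w θ).Reg := rs_reg hd hm _ _
  have e1 : (fun (_ : RI n K → ℝ) (x : Fin n → Bool) =>
      ∑ e, (tre (K := K) N β P x e ^ 2 - cvf (K := K) N d γ w x e ^ 2)) =
      fun _ _ => β ^ 2 / ((N + 1 : ℕ) : ℝ) := by
    funext _ x
    rw [Finset.sum_sub_distrib, sum_tre hNn β hP, sum_cvf hd hNn, hPK, ← hγN]
    ring
  rw [e1, hReg.Ex_const]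
  have e2 : ∀ l ∈ Finset.range (K + 1), (me K (l + 1) - me K l) *
      -(β ^ 2 * (SF n K d (me K) β N s P w θ).pairEx l (fun x x' => |Rov (ph hN') x x' - R₀ l|) +
        β ^ 2 / ((N + 1 : ℕ) : ℝ)) ≤ (me K (l + 1) - me K l) *
      (SF n K d (me K) β N s P w θ).pairEx l (fun x x' =>
        cv (rlv d) l (tre (K := K) N β P) (tre N β P) x x' -
          cv (rlv d) l (cvf (K := K) N d γ w) (cvf N d γ w) x x') := by
    intro l hl
    have hl' : l ≤ K := by have := Finset.mem_range.1 hl; omega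
    have hl'' : l ≤ (SF n K d (me K) β N s P w θ).K := hl'
    refine mul_le_mul_of_nonneg_left ?_ (rs_p_nonneg hm hl)
    rcases lt_or_ge l d with hld | hld
    · have e3 : (fun x x' => cv (rlv d) l (tre (n := n) (K := K) N β P) (tre N β P) x x' -
          cv (rlv d) l (cvf (n := n) (K := K) N d γ w) (cvf N d γ w) x x') = fun _ _ => 0 := by
        funext x x'
        rw [cv_tre' hNn hl' β hP, cv_cvf hd hNn, cv_cav_lt hld, hPlt l hld,
          if_neg (not_le.2 hld)]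
        ring
      rw [e3, hReg.pairEx_const hl'']
      have e4 : 0 ≤ (SF n K d (me K) β N s P w θ).pairEx l
          (fun x x' => |Rov (ph hN') x x' - R₀ l|) :=
        hReg.pairEx_nonneg hl'' fun x x' => abs_nonneg _
      have e5 := mul_nonneg hb2 e4
      have e6 : 0 ≤ β ^ 2 / ((N + 1 : ℕ) : ℝ) := div_nonneg hb2 hN1.le
      linarith
    rw [← hRge l hld]
    have e3 : -(β ^ 2 * (SF n K d (me K) β N s P w θ).pairEx l
        (fun x x' => |Rov (ph hN') x x' - R l|) + β ^ 2 / ((N + 1 : ℕ) : ℝ)) =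
        (SF n K d (me K) β N s P w θ).pairEx l (fun x x' =>
          (-β ^ 2) * |Rov (ph hN') x x' - R l| + -(β ^ 2 / ((N + 1 : ℕ) : ℝ))) := by
      rw [hReg.pairEx_add hl'' (fun x x' => (-β ^ 2) * |Rov (ph hN') x x' - R l|)
        (fun _ _ => -(β ^ 2 / ((N + 1 : ℕ) : ℝ))), hReg.pairEx_const_mul,
        hReg.pairEx_const hl'']
      ring
    rw [e3]
    refine hReg.pairEx_mono hl'' fun x x' => ?_
    rw [cv_tre' hNn hl' β hP, cv_cvf hd hNn, cv_cav_ge hNn hld, if_pos hld]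
    obtain ⟨r, hr⟩ : ∃ r, r = Rov (ph hN') x x' := ⟨_, rfl⟩
    obtain ⟨ω, hω⟩ : ∃ ω, ω = sp N x * sp N x' := ⟨_, rfl⟩
    have hr1 : |r| ≤ 1 := by rw [hr]; exact rs_abs_Rov hN' h0 x x'
    have hw1 : |ω| = 1 := by
      have a1 := sp_sq hNn x
      have a2 := sp_sq hNn x'
      have a3 : ω ^ 2 = 1 := by rw [hω, mul_pow, a1, a2, one_mul]
      rw [← sq_abs] at a3
      exact (pow_eq_one_iff_of_nonneg (abs_nonneg ω) two_ne_zero).1 a3
    rw [← hr, ← hω]
    have e4 : β ^ 2 * ω * P l - (γ ^ 2 * ω * (N * r) + w ^ 2 * ω) =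
        ω * (β ^ 2 * (R l - r) + β ^ 2 / ((N + 1 : ℕ) : ℝ) * r) := by
      rw [← hγN]
      linear_combination ω * hPge l hld
    rw [e4]
    have e5 : |ω * (β ^ 2 * (R l - r) + β ^ 2 / ((N + 1 : ℕ) : ℝ) * r)| ≤
        β ^ 2 * |r - R l| + β ^ 2 / ((N + 1 : ℕ) : ℝ) := by
      rw [abs_mul, hw1, one_mul]
      refine (abs_add_le _ _).trans (add_le_add ?_ ?_)
      · rw [abs_mul, abs_of_nonneg hb2, abs_sub_comm]
      · rw [abs_mul, abs_of_nonneg (div_nonneg hb2 hN1.le)]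
        exact mul_le_of_le_one_right (div_nonneg hb2 hN1.le) hr1
    have e6 := (abs_le.1 e5).1
    linarith
  have e7 := Finset.sum_le_sum e2
  have e8 : ∑ l ∈ Finset.range (K + 1), (me K (l + 1) - me K l) *
      -(β ^ 2 * (SF n K d (me K) β N s P w θ).pairEx l (fun x x' => |Rov (ph hN') x x' - R₀ l|) +
        β ^ 2 / ((N + 1 : ℕ) : ℝ)) =
      -(β ^ 2 * ∑ l ∈ Finset.range (K + 1), (me K (l + 1) - me K l) *
        (SF n K d (me K) β N s P w θ).pairEx l (fun x x' => |Rov (ph hN') x x' - R₀ l|) +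
        β ^ 2 / ((N + 1 : ℕ) : ℝ) * ∑ l ∈ Finset.range (K + 1), (me K (l + 1) - me K l)) := by
    rw [Finset.mul_sum, Finset.mul_sum, ← Finset.sum_add_distrib, ← Finset.sum_neg_distrib]
    exact Finset.sum_congr rfl fun l _ => by ring
  rw [e8, hsum, mul_one] at e7
  have e9 := mul_le_mul_of_nonneg_left (hdev θ) hb2
  linarith

/-- the squares of the overlaps -/
lemma stepF_sq (hd : d ≤ K) (hN : N ≤ n) (h0 : 0 < N) {R R₀ : ℕ → ℝ} {W : ℝ}
    (hRlt : ∀ l, l < d → R l = 0) (hRge : ∀ l, d ≤ l → R l = R₀ l)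
    (hRm : ∀ l ≤ K, 0 ≤ R l ∧ R l ≤ 1)
    (hdev0 : ∑ l ∈ Finset.range (K + 1), (me K (l + 1) - me K l) *
      (SN n K d (me K) β N s).pairEx l (fun x x' => |Rov (ph hN) x x' - R₀ l|) ≤ W) :
    ∑ l ∈ Finset.range (K + 1), (me K (l + 1) - me K l) * R l ^ 2 - 2 * W ≤
      ∑ l ∈ Finset.range (K + 1), (me K (l + 1) - me K l) *
        (if d ≤ l then (SN n K d (me K) β N s).pairEx l (fun x x' => Rov (ph hN) x x' ^ 2)
          else 0) := by
  have hm := me_exp K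
  have hN' : N ≤ n := hN
  have hReg : (SN n K d (me K) β N s).Reg := rs_reg hd hm _ _
  have a1 : ∀ l ∈ Finset.range (K + 1), (me K (l + 1) - me K l) * (R l ^ 2 -
      2 * (SN n K d (me K) β N s).pairEx l (fun x x' => |Rov (ph hN') x x' - R₀ l|)) ≤
      (me K (l + 1) - me K l) *
      (if d ≤ l then (SN n K d (me K) β N s).pairEx l (fun x x' => Rov (ph hN') x x' ^ 2)
        else 0) := by
    intro l hl
    have hl' : l ≤ K := by have := Finset.mem_range.1 hl; omega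
    have hl'' : l ≤ (SN n K d (me K) β N s).K := hl'
    refine mul_le_mul_of_nonneg_left ?_ (rs_p_nonneg hm hl)
    rcases lt_or_ge l d with hld | hld
    · rw [if_neg (not_le.2 hld), hRlt l hld]
      have e4 : 0 ≤ (SN n K d (me K) β N s).pairEx l
          (fun x x' => |Rov (ph hN') x x' - R₀ l|) :=
        hReg.pairEx_nonneg hl'' fun x x' => abs_nonneg _
      nlinarith
    rw [if_pos hld, ← hRge l hld]
    have a2 : R l ^ 2 - 2 * (SN n K d (me K) β N s).pairEx l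
        (fun x x' => |Rov (ph hN') x x' - R l|) =
        (SN n K d (me K) β N s).pairEx l (fun x x' => (-2) * |Rov (ph hN') x x' - R l| +
          R l ^ 2) := by
      rw [hReg.pairEx_add hl'' (fun x x' => (-2) * |Rov (ph hN') x x' - R l|)
          (fun _ _ => R l ^ 2), hReg.pairEx_const_mul, hReg.pairEx_const hl'']
      ring
    rw [a2]
    refine hReg.pairEx_mono hl'' fun x x' => ?_
    obtain ⟨r, hr⟩ : ∃ r, r = Rov (ph hN') x x' := ⟨_, rfl⟩
    have hr1 : |r| ≤ 1 := by rw [hr]; exact rs_abs_Rov hN' h0 x x'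
    have hr2 := abs_le.1 hr1
    have hR' := hRm l hl'
    rw [← hr]
    have a3 := abs_le.1 (le_refl |r - R l|)
    rcases abs_cases (r - R l) with h | h
    · rw [h.1]
      nlinarith
    · rw [h.1]
      nlinarith
  refine le_trans ?_ (Finset.sum_le_sum a1)
  have a4 : ∑ l ∈ Finset.range (K + 1), (me K (l + 1) - me K l) * (R l ^ 2 -
      2 * (SN n K d (me K) β N s).pairEx l (fun x x' => |Rov (ph hN') x x' - R₀ l|)) =
      ∑ l ∈ Finset.range (K + 1), (me K (l + 1) - me K l) * R l ^ 2 -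
      2 * ∑ l ∈ Finset.range (K + 1), (me K (l + 1) - me K l) *
        (SN n K d (me K) β N s).pairEx l (fun x x' => |Rov (ph hN') x x' - R₀ l|) := by
    rw [Finset.mul_sum, ← Finset.sum_sub_distrib]
    exact Finset.sum_congr rfl fun l _ => by ring
  rw [a4]
  linarith

/-- **The step with a field.** -/
theorem AN_stepF (hd1 : 1 ≤ d) (hd : d ≤ K) (hN : N + 1 ≤ n) (h0 : 0 < N) (hβ : 0 < β)
    {σ : ℝ} (hσ : 0 < σ)
    (hs : ∀ l ≤ K, σ ≤ s l) (hs1 : s 0 ≤ 1) {c : ℝ} (hc : β ^ 2 + s d ^ 2 ≤ c) {t : ℝ}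
    (ht : 0 < t) (ht1 : t ≤ 1) :
    PSV β K d (me K) (s d ^ 2)
        (ct d (stR (SN n K d (me K) β N s) (ph (Nat.le_of_succ_le hN)))) ≤
      AN n K d (me K) β (N + 1) s - AN n K d (me K) β N s + β ^ 2 / (N + 1 : ℕ) +
        β ^ 2 * wE K σ (eeF n K d (me K) β c N s t) := by
  have hs0 : ∀ l ≤ K, 0 ≤ s l := fun l hl => hσ.le.trans (hs l hl)
  have hN' : N ≤ n := Nat.le_of_succ_le hN
  have hNn : N < n := hN
  have hm := me_exp K
  have hb2 : 0 ≤ β ^ 2 := sq_nonneg β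
  have hN1 : (0 : ℝ) < ((N + 1 : ℕ) : ℝ) := by positivity
  have F0 := SN_fld (β := β) hd hN' h0 hm hs0
  obtain ⟨R₀, hRdef⟩ : ∃ R, R = stR (SN n K d (me K) β N s) (ph hN') := ⟨_, rfl⟩
  obtain ⟨R, hRc⟩ : ∃ R, R = ct d R₀ := ⟨_, rfl⟩
  obtain ⟨W, hW⟩ : ∃ W, W = wE K σ (eeF n K d (me K) β c N s t) := ⟨_, rfl⟩
  have hR₀ : Path K R₀ := by rw [hRdef]; exact st_path F0
  have hRK₀ : R₀ K = 1 := by rw [hRdef]; exact stR_last (SN n K d (me K) β N s) (ph hN')
  have hR : Path K R := by rw [hRc]; exact ct_path hR₀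
  have hRK : R K = 1 := by rw [hRc, ct_ge hd, hRK₀]
  have hRlt : ∀ l, l < d → R l = 0 := fun l hl => by rw [hRc, ct_lt hl]
  have hRge : ∀ l, d ≤ l → R l = R₀ l := fun l hl => by rw [hRc, ct_ge hl]
  have hR1 : R K ≤ 1 := hRK.le
  have hRm : ∀ l ≤ K, 0 ≤ R l ∧ R l ≤ 1 := by
    have mono : ∀ i j, i ≤ j → j ≤ K → R i ≤ R j := by
      intro i j hij
      induction j, hij using Nat.le_induction with
      | base => intro _; exact le_rfl
      | succ j _ ih => intro hj; exact (ih (by omega)).trans (hR.2 j (by omega))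
    intro l hl
    exact ⟨hR.1.trans (mono 0 l (Nat.zero_le _) hl), (mono l K hl le_rfl).trans hR1⟩
  obtain ⟨w, hw⟩ : ∃ w, w = s d := ⟨_, rfl⟩
  rw [← hw] at hc
  have hb0 : 0 < β ^ 2 := by positivity
  have hw2 : 0 ≤ w ^ 2 := sq_nonneg w
  have hcb : β ^ 2 ≤ c := by linarith
  obtain ⟨P, hPdef⟩ : ∃ P : ℕ → ℝ, P = fun l => if l < d then 0 else R l + w ^ 2 / β ^ 2 :=
    ⟨_, rfl⟩
  have hPlt : ∀ l, l < d → P l = 0 := fun l hl => by rw [hPdef]; exact if_pos hl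
  have hPge : ∀ l, d ≤ l → β ^ 2 * P l = β ^ 2 * R l + w ^ 2 := fun l hl => by
    rw [hPdef]
    simp only
    rw [if_neg (not_lt.2 hl)]
    field_simp
  have hP : Path K P := by
    refine ⟨(hPlt 0 (by omega)).ge, fun l hl => ?_⟩
    rcases lt_or_ge l d with h | h
    · rw [hPlt l h]
      rcases lt_or_ge (l + 1) d with h' | h'
      · rw [hPlt _ h']
      · have e := hPge _ h'
        have e2 := mul_nonneg hb2 (hRm (l + 1) (by omega)).1
        nlinarith
    · have e := hPge _ h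
      have e2 := hPge (l + 1) (by omega)
      have e3 := mul_le_mul_of_nonneg_left (hR.2 l hl) hb2
      nlinarith
  have hP0 : P 0 = 0 := hPlt 0 (by omega)
  have hPK : β ^ 2 * P K = β ^ 2 + w ^ 2 := by rw [hPge K hd, hRK, mul_one]
  have hdev : ∀ θ, ∑ l ∈ Finset.range (K + 1), (me K (l + 1) - me K l) *
      (SF n K d (me K) β N s P w θ).pairEx l (fun x x' => |Rov (ph hN') x x' - R₀ l|) ≤ W := by
    intro θ
    have h1 := SF_dev (β := β) (w := w) (c := c) hd1 hd hN h0 hP hP0 (by rw [hPK]; exact hc) hc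
      hσ hs hs1 ht ht1 θ
    rw [hW]
    rw [← hRdef] at h1
    exact h1
  have hdev0 : ∑ l ∈ Finset.range (K + 1), (me K (l + 1) - me K l) *
      (SN n K d (me K) β N s).pairEx l (fun x x' => |Rov (ph hN') x x' - R₀ l|) ≤ W := by
    have h1 := SN_devF (β := β) (c := c) hd1 hd hN' h0 hcb hσ hs hs1 ht ht1
    rw [hW]
    rw [← hRdef] at h1
    exact h1
  rw [← hRdef, ← hRc, ← hW, ← hw]
  have hsum := rs_sum_p hm
  -- (1)
  have h1 := AN_succ_geF hd hN hm β s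
  rw [← hw] at h1
  -- (2)
  have h2 := stepF_int (w := w) hd hN h0 hRge hPlt hPge hP hPK hdev
  -- (3)
  have h3 := fe_tre (R := P) hd hNn hm hβ.le hP s
  -- (4)
  have h4 := SC_ge (β := β) hd hN' h0 hm s
  have h5 := stepF_sq (β := β) hd hN' h0 hRlt hRge hRm hdev0
  have h6 := mul_le_mul_of_nonneg_left h5 (show 0 ≤ β ^ 2 / 4 by positivity)
  rw [h3, hPK] at h2
  have hsp : (fun l => β ^ 2 * P l) = fun l => if l < d then 0 else β ^ 2 * R l + w ^ 2 := by
    funext l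
    rcases lt_or_ge l d with h | h
    · rw [hPlt l h, if_pos h, mul_zero]
    · rw [hPge l h, if_neg (not_lt.2 h)]
  rw [hsp] at h2
  unfold PSV
  have h7 : β ^ 2 / 4 * (1 - ∑ l ∈ Finset.range (K + 1), (me K (l + 1) - me K l) *
        (if d ≤ l then (SN n K d (me K) β N s).pairEx l (fun x x' => Rov (ph hN') x x' ^ 2)
          else 0)) =
      β ^ 2 / 4 - β ^ 2 / 4 * ∑ l ∈ Finset.range (K + 1), (me K (l + 1) - me K l) *
        (if d ≤ l then (SN n K d (me K) β N s).pairEx l (fun x x' => Rov (ph hN') x x' ^ 2)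
          else 0) := by ring
  rw [h7] at h4
  have h8 : β ^ 2 / 4 * (∑ l ∈ Finset.range (K + 1), (me K (l + 1) - me K l) * R l ^ 2 - 2 * W) =
      β ^ 2 / 4 * ∑ l ∈ Finset.range (K + 1), (me K (l + 1) - me K l) * R l ^ 2 -
        β ^ 2 * W / 2 := by ring
  rw [h8] at h6
  have h9 : β ^ 2 / 4 * (1 + ∑ i ∈ Finset.range (K + 1), (me K (i + 1) - me K i) * R i ^ 2) =
      β ^ 2 / 4 + β ^ 2 / 4 * ∑ i ∈ Finset.range (K + 1), (me K (i + 1) - me K i) * R i ^ 2 := by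
    ring
  rw [h9]
  linarith

end Vale.Agent.P146.Ub.Ld.F4
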