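import Mathlib
import Vale.Agent.P146.H420B.FldStep
import Vale.Agent.P146.H9.Mod


/-!
# P146: the rate of the lower bound of the exponential moments with a field
-/

set_option linter.all false

open MeasureTheory ProbabilityTheory Filter Topology Finset

namespace Vale.Agent.P146.Ub.Ld.F4

set_option linter.unusedSectionVars false

open Vale.Agent.P157 Vale.Agent.P157.Lv Vale.Agent.P157.Lv.Sy
open Vale.Agent.P157.Par (Path Exponents incr spinPart)
open Vale.Agent.P146 (Pair freeEnergy disorder)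
open Vale.Agent.P146.Sk (PSK)

/-- the strengths shifted at the level `d` -/
noncomputable def shf (d : ℕ) (v : ℝ) (s : ℕ → ℝ) : ℕ → ℝ := fun l => s l + if l = d then v else 0

lemma shf_update (d : ℕ) (v : ℝ) (s : ℕ → ℝ) (j : ℕ) (x : ℝ) :
    shf d v (Function.update s j (s j + x)) =
      Function.update (shf d v s) j (shf d v s j + x) := by
  funext l
  by_cases h : l = j
  · subst h
    unfold shf
    rw [Function.update_self, Function.update_self]
    ring
  · rw [Function.update_of_ne h]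
    unfold shf
    rw [Function.update_of_ne h]

lemma shf_ge {d : ℕ} {v : ℝ} (hv : 0 ≤ v) (s : ℕ → ℝ) (l : ℕ) : s l ≤ shf d v s l := by
  unfold shf
  split_ifs <;> linarith

lemma shf_self (d : ℕ) (v : ℝ) (s : ℕ → ℝ) : shf d v s d = s d + v := by
  unfold shf
  rw [if_pos rfl]

lemma shf_ne {d l : ℕ} (h : l ≠ d) (v : ℝ) (s : ℕ → ℝ) : shf d v s l = s l := by
  unfold shf
  rw [if_neg h, add_zero]

/-- The sum of the second differences over the grid telescopes. `A` has the tangents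
`C j s`, nonnegative and at most `D` at the upper end. -/
theorem avg_dlF {K M : ℕ} {σ t D : ℝ} (hM : 0 < M) (ht : 0 < t) (hσ : t ≤ σ)
    {A : (ℕ → ℝ) → ℝ} {C : ℕ → (ℕ → ℝ) → ℝ}
    (hT : ∀ (s : ℕ → ℝ) (j : ℕ), j ≤ K → ∀ x, A s + x * C j s ≤ A (Function.update s j (s j + x)))
    {j : ℕ} (hj : j ≤ K)
    (hC0 : ∀ s : ℕ → ℝ, (∀ l ≤ K, 0 ≤ s l) → 0 ≤ C j s)
    (hC1 : ∀ s : ℕ → ℝ, (∀ l ≤ K, 0 ≤ s l) → s j = σ + M * t → C j s ≤ D) :
    ∑ k : Fin (K + 1) → Fin M, (A (Function.update (gp σ t k) j (gp σ t k j + t)) +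
        A (Function.update (gp σ t k) j (gp σ t k j - t)) - 2 * A (gp σ t k)) ≤
      (M : ℝ) ^ K * (t * D) := by
  have hjK : j < K + 1 := Nat.lt_succ_of_le hj
  have hM' : (0 : ℝ) < M := by exact_mod_cast hM
  -- the sum along a line
  have line : ∀ k : Fin (K + 1) → Fin M,
      ∑ i : Fin M, (fun k : Fin (K + 1) → Fin M =>
        A (Function.update (gp σ t k) j (gp σ t k j + t)) +
        A (Function.update (gp σ t k) j (gp σ t k j - t)) - 2 * A (gp σ t k))
          (Function.update k ⟨j, hjK⟩ i) ≤ t * D := by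
    intro k
    have e1 : ∀ i : Fin M, (fun k : Fin (K + 1) → Fin M =>
        A (Function.update (gp σ t k) j (gp σ t k j + t)) +
        A (Function.update (gp σ t k) j (gp σ t k j - t)) - 2 * A (gp σ t k))
          (Function.update k ⟨j, hjK⟩ i) =
        (fun i : ℕ => (fun i : ℕ => A (Function.update (gp σ t k) j (σ + (i : ℝ) * t - t))) (i + 2)
          + (fun i : ℕ => A (Function.update (gp σ t k) j (σ + (i : ℝ) * t - t))) i
          - 2 * (fun i : ℕ => A (Function.update (gp σ t k) j (σ + (i : ℝ) * t - t))) (i + 1))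
            (i : ℕ) := by
      intro i
      simp only [gp_update, Function.update_idem, Function.update_self]
      have e1 : σ + (((i : ℕ) + 2 : ℕ) : ℝ) * t - t = σ + ((i : ℕ) : ℝ) * t + t := by
        push_cast; ring
      have e2 : σ + (((i : ℕ) + 1 : ℕ) : ℝ) * t - t = σ + ((i : ℕ) : ℝ) * t := by
        push_cast; ring
      rw [e1, e2]
    rw [Finset.sum_congr rfl fun i _ => e1 i]
    rw [Fin.sum_univ_eq_sum_range (fun i : ℕ =>
      (fun i : ℕ => A (Function.update (gp σ t k) j (σ + (i : ℝ) * t - t))) (i + 2)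
          + (fun i : ℕ => A (Function.update (gp σ t k) j (σ + (i : ℝ) * t - t))) i
          - 2 * (fun i : ℕ => A (Function.update (gp σ t k) j (σ + (i : ℝ) * t - t))) (i + 1)) M,
      avg_tele (fun i : ℕ => A (Function.update (gp σ t k) j (σ + (i : ℝ) * t - t)))]
    have e3 : σ + ((M + 1 : ℕ) : ℝ) * t - t = σ + M * t := by push_cast; ring
    have e4 : σ + ((1 : ℕ) : ℝ) * t - t = σ := by push_cast; ring
    have e5 : σ + ((0 : ℕ) : ℝ) * t - t = σ - t := by push_cast; ring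
    simp only [e3, e4, e5]
    have hpos : ∀ x, 0 ≤ x → ∀ l ≤ K, 0 ≤ Function.update (gp σ t k) j x l := by
      intro x hx l hl
      by_cases h : l = j
      · subst h; rw [Function.update_self]; exact hx
      · rw [Function.update_of_ne h]
        have := (gp_mem (σ := σ) ht.le k hl).1
        linarith only [this, hσ, ht]
    -- the upper end
    have h1 := hT (Function.update (gp σ t k) j (σ + M * t)) j hj (-t)
    rw [Function.update_idem, Function.update_self] at h1
    have e6 : σ + M * t + -t = σ + M * t - t := by ring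
    rw [e6] at h1
    have h0 : 0 ≤ σ + M * t := by
      have := mul_nonneg hM'.le ht.le
      linarith
    have h2 := hC1 (Function.update (gp σ t k) j (σ + M * t)) (hpos _ h0)
      (Function.update_self _ _ _)
    have h3 := mul_le_mul_of_nonneg_left h2 ht.le
    -- the lower end
    have h4 := hT (Function.update (gp σ t k) j (σ - t)) j hj t
    rw [Function.update_idem, Function.update_self] at h4
    have e7 : σ - t + t = σ := by ring
    rw [e7] at h4
    have h5 := hC0 (Function.update (gp σ t k) j (σ - t)) (hpos _ (by linarith))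
    have h6 := mul_nonneg ht.le h5
    have e8 : σ + (M : ℝ) * t - t = σ + M * t - t := rfl
    linarith
  have h1 := avg_resample (Y := Fin M) (⟨j, hjK⟩ : Fin (K + 1))
    (fun k : Fin (K + 1) → Fin M => A (Function.update (gp σ t k) j (gp σ t k j + t)) +
        A (Function.update (gp σ t k) j (gp σ t k j - t)) - 2 * A (gp σ t k))
  have h2 := Finset.sum_le_sum fun k (_ : k ∈ (Finset.univ : Finset (Fin (K + 1) → Fin M))) =>
    line k
  rw [h1, Finset.sum_const, Finset.card_univ, nsmul_eq_mul, Fintype.card_pi_const,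
    Fintype.card_fin, Nat.cast_pow] at h2
  rw [pow_succ, mul_comm ((M : ℝ) ^ K) (M : ℝ), mul_assoc] at h2
  exact le_of_mul_le_mul_left h2 hM'

/-- The average of the second differences over the grid. -/
theorem rr_avg_dlF {n K N M d : ℕ} {m : ℕ → ℝ} {β v : ℝ} (hd : d ≤ K) (hN : N ≤ n) (h0 : 0 < N)
    (hm : Exponents K m) (hM : 0 < M) {σ t : ℝ} (ht : 0 < t) (hσ : t ≤ σ) (hv : 0 ≤ v) :
    ∑ k : Fin (K + 1) → Fin M, ∑ j ∈ Finset.range (K + 1),
        dl n K d m β N (shf d v (gp σ t k)) t j ≤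
      (M : ℝ) ^ K * (t * (N * (((K + 1 : ℕ) : ℝ) * (σ + M * t) + v))) := by
  rw [Finset.sum_comm]
  have h1 : ∀ j ∈ Finset.range (K + 1),
      ∑ k : Fin (K + 1) → Fin M, dl n K d m β N (shf d v (gp σ t k)) t j ≤
        (M : ℝ) ^ K * (t * (N * (σ + M * t + if j = d then v else 0))) := by
    intro j hj
    rw [Finset.mem_range] at hj
    have hj' : j ≤ K := Nat.le_of_lt_succ hj
    have key := avg_dlF (K := K) (A := fun s => AN n K d m β N (shf d v s))
      (C := fun j s => (SN n K d m β N (shf d v s)).Ex (gx hN j))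
      (D := N * (σ + M * t + if j = d then v else 0)) hM ht hσ
      (fun s j hj x => by
        rw [shf_update]
        exact AN_tangent hd hN hm (shf d v s) hj x) hj'
      (fun s hs => (AN_slope hd hN h0 hm (fun l hl => (hs l hl).trans (shf_ge hv s l)) hj').1)
      (fun s hs hsj => by
        refine (AN_slope hd hN h0 hm (fun l hl => (hs l hl).trans (shf_ge hv s l)) hj').2.trans
          (le_of_eq ?_)
        unfold shf
        rw [hsj])
    refine le_trans (le_of_eq ?_) key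
    refine Finset.sum_congr rfl fun k _ => ?_
    unfold dl
    have e1 := shf_update d v (gp σ t k) j t
    have e2 := shf_update d v (gp σ t k) j (-t)
    rw [← sub_eq_add_neg, ← sub_eq_add_neg] at e2
    rw [← e1, ← e2]
  refine (Finset.sum_le_sum h1).trans (le_of_eq ?_)
  rw [← Finset.mul_sum, ← Finset.mul_sum, ← Finset.mul_sum, Finset.sum_add_distrib,
    Finset.sum_const, Finset.card_range, nsmul_eq_mul, Finset.sum_ite_eq',
    if_pos (Finset.mem_range.2 (by omega))]

theorem eeF_sum {n K N d : ℕ} {m : ℕ → ℝ} {β c : ℝ} (s : ℕ → ℝ) (t : ℝ) :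
    eeF n K d m β c N s t = 1 / (N * t) * (2 * ∑ j ∈ Finset.range (K + 1), dl n K d m β N s t j +
      ((K + 1 : ℕ) : ℝ) * (3 * c + Real.log 2 / m 1 + 3 * √(2 * ((2 * β ^ 2 + 4) * N)))) := by
  unfold eeF ejF
  rw [← Finset.mul_sum]
  congr 1
  have : ∀ j ∈ Finset.range (K + 1), 2 * dl n K d m β N s t j + 3 * c + Real.log 2 / m 1 +
      3 * √(2 * ((2 * β ^ 2 + 4) * N)) = 2 * dl n K d m β N s t j +
        (3 * c + Real.log 2 / m 1 + 3 * √(2 * ((2 * β ^ 2 + 4) * N))) := fun j _ => by ring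
  rw [Finset.sum_congr rfl this, Finset.sum_add_distrib, Finset.sum_const, Finset.card_range,
    nsmul_eq_mul, ← Finset.mul_sum]

/-- the constant of the average error -/
noncomputable def rEF (β c : ℝ) : ℝ := 4 + 2 * (3 * c + 1) + 6 * √(2 * (2 * β ^ 2 + 4))

theorem rEF_nonneg (β : ℝ) {c : ℝ} (hc : 0 ≤ c) : 0 ≤ rEF β c := by unfold rEF; positivity

/-- The average of the errors over the grid. -/
theorem rr_avg_eeF {n K N d : ℕ} {β c v : ℝ} (hd : d ≤ K) (hc0' : 0 ≤ c) (hv : 0 ≤ v) (hv1 : v ≤ 1)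
    (hN : N ≤ n) (hNK : ((K + 1 : ℕ) : ℝ) ^ 16 ≤ N) :
    rAv (fun k : Fin (K + 1) → Fin ((K + 1) ^ 3) => eeF n K d (me K) β c N
      (shf d v (gp (1 / (2 * ((K + 1 : ℕ) : ℝ))) (1 / (2 * ((K + 1 : ℕ) : ℝ) ^ 4)) k))
      (1 / (2 * ((K + 1 : ℕ) : ℝ) ^ 4))) ≤ rEF β c / ((K + 1 : ℕ) : ℝ) ^ 3 := by
  obtain ⟨l, hl⟩ : ∃ l : ℝ, l = ((K + 1 : ℕ) : ℝ) := ⟨_, rfl⟩
  have hl1 : 1 ≤ l := by rw [hl]; push_cast; linarith [Nat.cast_nonneg (α := ℝ) K]
  have hl0 : 0 < l := by linarith
  have hM : 0 < (K + 1) ^ 3 := by positivity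
  have hMl : (((K + 1) ^ 3 : ℕ) : ℝ) = l ^ 3 := by rw [hl]; push_cast; ring
  rw [← hl] at hNK ⊢
  have hN0 : (0 : ℝ) < N := lt_of_lt_of_le (by positivity) hNK
  have hN0' : 0 < N := by exact_mod_cast hN0
  obtain ⟨t, ht⟩ : ∃ t : ℝ, t = 1 / (2 * l ^ 4) := ⟨_, rfl⟩
  have ht0 : 0 < t := by rw [ht]; positivity
  have htσ : t ≤ 1 / (2 * l) := by
    rw [ht]
    apply one_div_le_one_div_of_le (by positivity)
    have : l ≤ l ^ 4 := le_self_pow₀ hl1 (by norm_num)
    linarith
  rw [← ht]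
  have h1 := rr_avg_dlF (n := n) (K := K) (N := N) (β := β) (v := v) hd hN hN0' (me_exp K) hM ht0
    htσ hv
  rw [hMl, ← hl] at h1
  have e1 : 1 / (2 * l) + l ^ 3 * t = 1 / l := by
    rw [ht]; field_simp; ring
  rw [e1, show l * (1 / l) = 1 by field_simp] at h1
  obtain ⟨g, hg⟩ : ∃ g : ℝ, g = √(2 * (2 * β ^ 2 + 4)) := ⟨_, rfl⟩
  have hg0 : 0 ≤ g := by rw [hg]; exact Real.sqrt_nonneg _
  have e2 : √(2 * ((2 * β ^ 2 + 4) * N)) = g * √N := by
    rw [hg, ← Real.sqrt_mul (by positivity)]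
    congr 1; ring
  have e3 : Real.log 2 / me K 1 = l * Real.log 2 := by
    unfold me
    rw [← hl]
    simp
    ring
  have hcard : (Fintype.card (Fin (K + 1) → Fin ((K + 1) ^ 3)) : ℝ) = (l ^ 3) ^ (K + 1) := by
    rw [Fintype.card_pi_const, Fintype.card_fin]
    rw [Nat.cast_pow, hMl]
  have h2 : ∀ k : Fin (K + 1) → Fin ((K + 1) ^ 3), eeF n K d (me K) β c N
      (shf d v (gp (1 / (2 * l)) t k)) t =
      1 / (N * t) * (2 * ∑ j ∈ Finset.range (K + 1),
        dl n K d (me K) β N (shf d v (gp (1 / (2 * l)) t k)) t j) +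
      1 / (N * t) * (l * (3 * c + l * Real.log 2 + 3 * (g * √N))) := by
    intro k
    rw [eeF_sum, e2, e3, ← hl]
    ring
  have : Nonempty (Fin (K + 1) → Fin ((K + 1) ^ 3)) := ⟨fun _ => ⟨0, hM⟩⟩
  simp only [h2]
  rw [rAv_add, rAv_mul, rAv_mul, rAv_const]
  have h3 : rAv (fun k : Fin (K + 1) → Fin ((K + 1) ^ 3) => ∑ j ∈ Finset.range (K + 1),
      dl n K d (me K) β N (shf d v (gp (1 / (2 * l)) t k)) t j) ≤ 2 * t * N / l ^ 3 := by
    unfold rAv
    rw [hcard]
    have h1' : (l ^ 3) ^ K * (t * (N * (1 + v))) ≤ (l ^ 3) ^ K * (t * (N * 2)) := by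
      have : (1 : ℝ) + v ≤ 2 := by linarith
      gcongr
    have h4 := mul_le_mul_of_nonneg_left (h1.trans h1')
      (by positivity : (0 : ℝ) ≤ 1 / (l ^ 3) ^ (K + 1))
    refine h4.trans (le_of_eq ?_)
    rw [pow_succ]
    field_simp
  have hx : l ^ 8 ≤ √N := by
    rw [← Real.sqrt_sq (by positivity : (0 : ℝ) ≤ l ^ 8)]
    apply Real.sqrt_le_sqrt
    rw [← pow_mul]
    exact hNK
  have hx0 : 0 < √(N : ℝ) := lt_of_lt_of_le (by positivity) hx
  have h5 : 1 / (N * t) * (2 * rAv (fun k : Fin (K + 1) → Fin ((K + 1) ^ 3) =>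
      ∑ j ∈ Finset.range (K + 1), dl n K d (me K) β N (shf d v (gp (1 / (2 * l)) t k)) t j)) ≤ 4 / l ^ 3 := by
    have := mul_le_mul_of_nonneg_left h3 (by positivity : (0 : ℝ) ≤ 1 / (N * t) * 2)
    rw [← mul_assoc]
    refine this.trans (le_of_eq ?_)
    field_simp
    ring
  have h6 : 1 / (N * t) * (l * (3 * c + l * Real.log 2 + 3 * (g * √N))) ≤
      (2 * (3 * c + 1) + 6 * g) / l ^ 3 := by
    have e4 : 1 / (N * t) * (l * (3 * c + l * Real.log 2 + 3 * (g * √N))) =
        2 * l ^ 5 * (3 * c + l * Real.log 2) / N + 6 * g * l ^ 5 * (√N / N) := by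
      rw [ht]; field_simp; ring
    have e5 : √(N : ℝ) / N = 1 / √N := by
      rw [div_eq_div_iff hN0.ne' hx0.ne', one_mul]
      exact Real.mul_self_sqrt hN0.le
    rw [e4, e5, add_div]
    refine add_le_add ?_ ?_
    · have hlog : Real.log 2 ≤ 1 := by
        have := Real.log_le_sub_one_of_pos (zero_lt_two' ℝ)
        linarith
      have h7 : 3 * c + l * Real.log 2 ≤ l * (3 * c + 1) := by
        have := mul_le_mul_of_nonneg_left hlog hl0.le
        have := mul_le_mul_of_nonneg_right hl1 (by positivity : (0 : ℝ) ≤ 3 * c)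
        linarith
      have h8 : l ^ 9 ≤ N := le_trans (pow_le_pow_right₀ hl1 (by norm_num)) hNK
      rw [div_le_div_iff₀ hN0 (by positivity)]
      have h9 : 2 * l ^ 5 * (3 * c + l * Real.log 2) * l ^ 3 ≤
          2 * (3 * c + 1) * l ^ 9 := by
        have := mul_le_mul_of_nonneg_left h7 (by positivity : (0 : ℝ) ≤ 2 * l ^ 8)
        linarith
      refine h9.trans (mul_le_mul_of_nonneg_left h8 (by positivity))
    · have h7 : 6 * g * l ^ 5 * (1 / √N) ≤ 6 * g * l ^ 5 * (1 / l ^ 8) :=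
        mul_le_mul_of_nonneg_left (one_div_le_one_div_of_le (by positivity) hx) (by positivity)
      refine h7.trans (le_of_eq ?_)
      field_simp
  refine (add_le_add h5 h6).trans (le_of_eq ?_)
  unfold rEF
  rw [← hg]
  ring

/-! ### the value -/

lemma path_fld {K d : ℕ} {β V : ℝ} (hV : 0 ≤ V) {q : ℕ → ℝ} (hq : Path K q) :
    Path K (fun l => if l < d then 0 else β ^ 2 * q l + V) := by
  have hq0 : ∀ l ≤ K, 0 ≤ q l := by
    intro l hl
    induction l with
    | zero => exact hq.1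
    | succ l ih => exact (ih (by omega)).trans (hq.2 l (by omega))
  refine ⟨?_, fun l hl => ?_⟩
  · beta_reduce
    split_ifs
    · exact le_rfl
    · exact add_nonneg (mul_nonneg (sq_nonneg β) hq.1) hV
  · beta_reduce
    by_cases h1 : l < d
    · rw [if_pos h1]
      split_ifs
      · exact le_rfl
      · exact add_nonneg (mul_nonneg (sq_nonneg β) (hq0 _ (by omega))) hV
    · rw [if_neg h1, if_neg (by omega)]
      have := mul_le_mul_of_nonneg_left (hq.2 l hl) (sq_nonneg β)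
      linarith

/-- the value increases with the field -/
theorem PSV_mono {K d : ℕ} (hd : d ≤ K) {m : ℕ → ℝ} (hm : Exponents K m) {β V V' : ℝ} (hV : 0 ≤ V)
    (hVV : V ≤ V') {q : ℕ → ℝ} (hq : Path K q) : PSV β K d m V q ≤ PSV β K d m V' q := by
  have hV' : 0 ≤ V' := hV.trans hVV
  obtain ⟨r', hr'⟩ : ∃ r' : ℕ → ℝ, r' = fun l => if l < d then 0 else β ^ 2 * q l + V' := ⟨_, rfl⟩
  obtain ⟨r, hr⟩ : ∃ r : ℕ → ℝ, r = fun l => if l < d then 0 else β ^ 2 * q l + V := ⟨_, rfl⟩
  have p1 : Path K r' := by rw [hr']; exact path_fld hV' hq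
  have p2 : Path K r := by rw [hr]; exact path_fld hV hq
  have h1 := Vale.Agent.P146.Gap.tangent_path hm p1 p2
  have h2 : ∀ l ∈ Finset.range (K + 1), (m (l + 1) - m l) * Par.spR K m r' l * (r l - r' l) ≥
      -((m (l + 1) - m l) * (if d ≤ l then (1 : ℝ) else 0) * (V' - V)) := by
    intro l hl
    have hl' : l ≤ K := by have := Finset.mem_range.1 hl; omega
    have hp : 0 ≤ m (l + 1) - m l := rs_p_nonneg hm hl
    have hs0 : 0 ≤ Par.spR K m r' l := Par.spR_nonneg hm (by rw [hr']; exact path_fld hV' hq) hl'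
    have hs1 : Par.spR K m r' l < 1 := Par.spR_lt_one hm (by rw [hr']; exact path_fld hV' hq) hl'
    by_cases h : d ≤ l
    · have e : r l - r' l = -(V' - V) := by
        rw [hr, hr']
        simp only
        rw [if_neg (not_lt.2 h), if_neg (not_lt.2 h)]
        ring
      rw [e, if_pos h]
      have h3 : 0 ≤ V' - V := by linarith
      have h4 := mul_le_mul_of_nonneg_left hs1.le hp
      have h5 := mul_le_mul_of_nonneg_right h4 h3
      linarith
    · have e : r l - r' l = 0 := by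
        rw [hr, hr']
        simp only
        rw [if_pos (not_le.1 h), if_pos (not_le.1 h)]
        ring
      rw [e, if_neg h]
      simp
  have h3 := Finset.sum_le_sum h2
  have h4 : ∑ l ∈ Finset.range (K + 1),
      -((m (l + 1) - m l) * (if d ≤ l then (1 : ℝ) else 0) * (V' - V)) = -((1 - m d) * (V' - V)) := by
    rw [Finset.sum_neg_distrib, ← Finset.sum_mul, rs_sum_ge hd hm]
  rw [h4] at h3
  have hmd : 0 ≤ m d := rs_m_nonneg (show d ≤ K + 1 by omega) hm
  have h5 : (1 - m d) * (V' - V) ≤ V' - V := by nlinarith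
  unfold PSV
  rw [← hr', ← hr]
  have h6 : 1 / 2 * ∑ l ∈ Finset.range (K + 1), (m (l + 1) - m l) * Par.spR K m r' l *
      (r l - r' l) ≥ 1 / 2 * -((1 - m d) * (V' - V)) :=
    mul_le_mul_of_nonneg_left h3 (by norm_num)
  linarith

lemma spinPart_le_zero {K : ℕ} {r : ℕ → ℝ} (hr : Path K r) : spinPart K (me K) r ≤ 0 := by
  have hm := me_exp K
  have h0 : Path K (fun _ => (0 : ℝ)) := ⟨le_rfl, fun l hl => le_rfl⟩
  have h1 := Vale.Agent.P146.Gap.tangent_path hm h0 hr
  have h2 : spinPart K (me K) (fun _ => 0) = 0 := by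
    unfold spinPart
    have h1 : ∀ l, 1 ≤ l → l ≤ K → me K l ≠ 0 := by
      intro l hl _
      unfold me
      have : (0 : ℝ) < l := by exact_mod_cast hl
      positivity
    rw [cascade_zero (me K) _ K h1]
    simp
  have hr0 : ∀ l ≤ K, 0 ≤ r l := by
    intro l hl
    induction l with
    | zero => exact hr.1
    | succ l ih => exact (ih (by omega)).trans (hr.2 l (by omega))
  have h3 : 0 ≤ ∑ l ∈ Finset.range (K + 1), (me K (l + 1) - me K l) *
      Par.spR K (me K) (fun _ => 0) l * (r l - 0) :=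
    Finset.sum_nonneg fun l hl => by
      have hl' : l ≤ K := by have := Finset.mem_range.1 hl; omega
      exact mul_nonneg (mul_nonneg (rs_p_nonneg hm hl) (Par.spR_nonneg hm h0 hl'))
        (by linarith [hr0 l hl'])
  linarith

/-- the lower bound is bounded -/
theorem Lb_leF {K d : ℕ} (hd : d ≤ K) {β V Lb : ℝ} (hV : 0 ≤ V) (hV1 : V ≤ 1)
    (hLb : ∀ q : ℕ → ℝ, Path K q → q K = 1 → (∀ l < d, q l = 0) → Lb ≤ PSV β K d (me K) V q) :
    Lb ≤ β ^ 2 / 2 + 1 / 2 := by
  have hq : Path K (fun l => if l < K then (0 : ℝ) else 1) := by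
    refine ⟨by beta_reduce; split_ifs <;> norm_num, fun l hl => ?_⟩
    beta_reduce
    rw [if_pos hl]
    split_ifs <;> norm_num
  have h := hLb (fun l => if l < K then 0 else 1) hq (if_neg (lt_irrefl K))
    (fun l hl => if_pos (lt_of_lt_of_le hl hd))
  refine h.trans ?_
  unfold PSV
  have h1 := spinPart_le_zero (path_fld (d := d) (β := β) hV hq)
  have h2 : ∑ i ∈ Finset.range (K + 1), (me K (i + 1) - me K i) *
      (if i < K then (0 : ℝ) else 1) ^ 2 ≤ ∑ i ∈ Finset.range (K + 1), (me K (i + 1) - me K i) := by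
    refine Finset.sum_le_sum fun i hi => ?_
    refine mul_le_of_le_one_right (rs_p_nonneg (me_exp K) hi) ?_
    split_ifs <;> norm_num
  rw [rs_sum_p (me_exp K)] at h2
  have h3 := mul_le_mul_of_nonneg_left h2 (show 0 ≤ β ^ 2 / 4 by positivity)
  linarith

/-- the constant of the rate -/
noncomputable def rWF (β : ℝ) : ℝ :=
  β ^ 2 * (1 + (√2 + 2 + √(40 * rEF β (β ^ 2 + 4)) + 4 * rEF β (β ^ 2 + 4)))

theorem rWF_nonneg (β : ℝ) : 0 ≤ rWF β := by
  have := rEF_nonneg β (show 0 ≤ β ^ 2 + 4 by positivity)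
  unfold rWF; positivity

/-- The averaged step. -/
theorem rr_step_avgF {n K N d : ℕ} {β v Lb : ℝ} (hd1 : 1 ≤ d) (hd : d ≤ K) (hβ : 0 < β)
    (hv : 0 ≤ v) (hv1 : v ≤ 1)
    (hLb : ∀ q : ℕ → ℝ, Path K q → q K = 1 → (∀ l < d, q l = 0) →
      Lb ≤ PSV β K d (me K) (v ^ 2) q)
    (hN : N + 1 ≤ n) (hNK : ((K + 1 : ℕ) : ℝ) ^ 16 ≤ N) :
    Lb ≤ rAv (fun k : Fin (K + 1) → Fin ((K + 1) ^ 3) =>
      AN n K d (me K) β (N + 1)
          (shf d v (gp (1 / (2 * ((K + 1 : ℕ) : ℝ))) (1 / (2 * ((K + 1 : ℕ) : ℝ) ^ 4)) k)) -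
        AN n K d (me K) β N
          (shf d v (gp (1 / (2 * ((K + 1 : ℕ) : ℝ))) (1 / (2 * ((K + 1 : ℕ) : ℝ) ^ 4)) k))) +
      rWF β / √((K + 1 : ℕ) : ℝ) := by
  obtain ⟨c, hc⟩ : ∃ c : ℝ, c = β ^ 2 + 4 := ⟨_, rfl⟩
  have hc0 : 0 ≤ c := by rw [hc]; positivity
  have hE0 := rEF_nonneg β hc0
  have hav := rr_avg_eeF (n := n) (K := K) (N := N) (β := β) hd hc0 hv hv1
    (Nat.le_of_succ_le hN) hNK
  have hgp := fun (k : Fin (K + 1) → Fin ((K + 1) ^ 3)) => fun {j : ℕ} (hj : j ≤ K) =>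
    rr_gp_le k hj
  obtain ⟨l, hl⟩ : ∃ l : ℝ, l = ((K + 1 : ℕ) : ℝ) := ⟨_, rfl⟩
  have hl1 : 1 ≤ l := by rw [hl]; push_cast; linarith [Nat.cast_nonneg (α := ℝ) K]
  have hl0 : 0 < l := by linarith
  have hM : 0 < (K + 1) ^ 3 := by positivity
  rw [← hl] at hNK hav hgp ⊢
  have hN0 : (0 : ℝ) < N := lt_of_lt_of_le (by positivity) hNK
  have hN0' : 0 < N := by exact_mod_cast hN0
  obtain ⟨t, ht⟩ : ∃ t : ℝ, t = 1 / (2 * l ^ 4) := ⟨_, rfl⟩
  have ht0 : 0 < t := by rw [ht]; positivity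
  have ht1 : t ≤ 1 := by
    rw [ht, div_le_one (by positivity)]
    have : 1 ≤ l ^ 4 := one_le_pow₀ hl1
    linarith
  rw [← ht] at hav hgp ⊢
  obtain ⟨σ, hσ⟩ : ∃ σ : ℝ, σ = 1 / (2 * l) := ⟨_, rfl⟩
  have hσ0 : 0 < σ := by rw [hσ]; positivity
  rw [← hσ] at hav hgp ⊢
  have hne : Nonempty (Fin (K + 1) → Fin ((K + 1) ^ 3)) := ⟨fun _ => ⟨0, hM⟩⟩
  obtain ⟨X, hX⟩ : ∃ X : (Fin (K + 1) → Fin ((K + 1) ^ 3)) → ℝ,
      X = fun k => eeF n K d (me K) β c N (shf d v (gp σ t k)) t := ⟨_, rfl⟩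
  obtain ⟨D, hD⟩ : ∃ D : (Fin (K + 1) → Fin ((K + 1) ^ 3)) → ℝ,
      D = fun k => AN n K d (me K) β (N + 1) (shf d v (gp σ t k)) -
        AN n K d (me K) β N (shf d v (gp σ t k)) := ⟨_, rfl⟩
  rw [← hX] at hav
  rw [← hD]
  have hX0 : ∀ k, 0 ≤ X k := by
    intro k
    rw [hX]
    simp only
    rw [eeF_sum]
    have h1 : 0 ≤ ∑ j ∈ Finset.range (K + 1), dl n K d (me K) β N (shf d v (gp σ t k)) t j :=
      Finset.sum_nonneg fun j hj => rr_dl_nonneg hd (Nat.le_of_succ_le hN) (me_exp K) _ _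
        (Nat.le_of_lt_succ (Finset.mem_range.1 hj))
    have h2 : 0 < me K 1 := by unfold me; positivity
    have h3 : 0 < Real.log 2 := Real.log_pos one_lt_two
    positivity
  -- the step at each point of the grid
  have hstep : ∀ k, Lb ≤ D k + (β ^ 2 * (1 / √l + (√2 / √l + 2 / √l)) +
      (β ^ 2 * √(40 * l ^ 2 * X k) + β ^ 2 * (4 * l ^ 2 * X k))) := by
    intro k
    have hsσ : ∀ j ≤ K, σ ≤ shf d v (gp σ t k) j := fun j hj =>
      (hgp k hj).1.trans (shf_ge hv _ j)
    have hs0 : ∀ j ≤ K, 0 ≤ shf d v (gp σ t k) j := fun j hj => hσ0.le.trans (hsσ j hj)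
    have hl1' : 1 / l ≤ 1 := by rw [div_le_one hl0]; exact hl1
    have hsd : shf d v (gp σ t k) d = gp σ t k d + v := shf_self d v _
    have hgd := (hgp k hd).2.trans hl1'
    have hgd0 := hσ0.le.trans (hgp k hd).1
    have hsd2 : β ^ 2 + shf d v (gp σ t k) d ^ 2 ≤ c := by
      rw [hc, hsd]
      have : (gp σ t k d + v) ^ 2 ≤ 2 ^ 2 := pow_le_pow_left₀ (by linarith) (by linarith) 2
      linarith
    have hs00 : shf d v (gp σ t k) 0 ≤ 1 := by
      rw [shf_ne (by omega)]
      exact (hgp k (Nat.zero_le _)).2.trans hl1'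
    have h1 := AN_stepF (n := n) (K := K) (N := N) (β := β) (s := shf d v (gp σ t k)) hd1 hd hN
      hN0' hβ hσ0 hsσ hs00 hsd2 ht0 ht1
    have hF := SN_fld (n := n) (K := K) (m := me K) (N := N) (β := β) (s := shf d v (gp σ t k)) hd
      (Nat.le_of_succ_le hN) hN0' (me_exp K) hs0
    have hlast : stR (SN n K d (me K) β N (shf d v (gp σ t k))) (ph (Nat.le_of_succ_le hN)) K = 1 :=
      stR_last (SN n K d (me K) β N (shf d v (gp σ t k))) (ph (Nat.le_of_succ_le hN))
    have hct := ct_path (d := d) (st_path hF)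
    have h2 := hLb (ct d (stR (SN n K d (me K) β N (shf d v (gp σ t k)))
      (ph (Nat.le_of_succ_le hN)))) hct (by rw [ct_ge hd, hlast]) (fun l hl => ct_lt hl _)
    have h2' := h2.trans (PSV_mono hd (me_exp K) (sq_nonneg v)
      (V' := shf d v (gp σ t k) d ^ 2) (by
        rw [hsd]
        exact pow_le_pow_left₀ hv (by linarith) 2) hct)
    have h3 := h2'.trans h1
    have e1 : ∀ y, wE K σ y = √(2 / l) + 2 / l + √(40 * l ^ 2 * y) + 4 * l ^ 2 * y := by
      intro y
      unfold wE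
      rw [← hl, hσ]
      have e2 : 20 * y * l / (1 / (2 * l)) = 40 * l ^ 2 * y := by
        field_simp; ring
      have e3 : 2 * l * y / (1 / (2 * l)) = 4 * l ^ 2 * y := by
        field_simp; ring
      rw [e2, e3]
    have hXk : eeF n K d (me K) β c N (shf d v (gp σ t k)) t = X k := by rw [hX]
    rw [e1, hXk] at h3
    have h4 : √(2 / l) = √2 / √l := Real.sqrt_div (by norm_num) l
    have h5 : 1 / l ≤ 1 / √l := by
      apply one_div_le_one_div_of_le (Real.sqrt_pos.2 hl0)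
      rw [Real.sqrt_le_left hl0.le]
      exact le_self_pow₀ hl1 (by norm_num)
    have h6 : 2 / l ≤ 2 / √l := by
      have := mul_le_mul_of_nonneg_left h5 (by norm_num : (0 : ℝ) ≤ 2)
      rw [mul_one_div, mul_one_div] at this
      exact this
    have h7 : 1 / ((N + 1 : ℕ) : ℝ) ≤ 1 / √l := by
      refine le_trans (one_div_le_one_div_of_le hl0 ?_) h5
      push_cast
      have : l ≤ l ^ 16 := le_self_pow₀ hl1 (by norm_num)
      linarith
    have hb := sq_nonneg β
    have h8 : β ^ 2 / ((N + 1 : ℕ) : ℝ) ≤ β ^ 2 * (1 / √l) := by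
      rw [← mul_one_div]
      exact mul_le_mul_of_nonneg_left h7 hb
    have h9 : β ^ 2 * (√(2 / l) + 2 / l) ≤ β ^ 2 * (√2 / √l + 2 / √l) := by
      rw [h4]
      exact mul_le_mul_of_nonneg_left (by linarith) hb
    have hDk : D k = AN n K d (me K) β (N + 1) (shf d v (gp σ t k)) -
        AN n K d (me K) β N (shf d v (gp σ t k)) := by
      rw [hD]
    rw [hDk]
    linarith
  have h1 := rAv_mono hstep
  rw [rAv_const, rAv_add, rAv_add, rAv_const, rAv_add, rAv_mul, rAv_mul, rAv_mul] at h1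
  -- the square root
  have h2 : rAv (fun k => √(40 * l ^ 2 * X k)) ≤ √(40 * rEF β c) / √l := by
    refine (rAv_sqrt fun k => mul_nonneg (by positivity) (hX0 k)).trans ?_
    rw [rAv_mul, ← Real.sqrt_div (by positivity)]
    apply Real.sqrt_le_sqrt
    have := mul_le_mul_of_nonneg_left hav (by positivity : (0 : ℝ) ≤ 40 * l ^ 2)
    refine this.trans (le_of_eq ?_)
    field_simp
  have h5 : 1 / l ≤ 1 / √l := by
    apply one_div_le_one_div_of_le (Real.sqrt_pos.2 hl0)
    rw [Real.sqrt_le_left hl0.le]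
    exact le_self_pow₀ hl1 (by norm_num)
  have h3 : 4 * l ^ 2 * rAv X ≤ 4 * rEF β c * (1 / √l) := by
    have h4 := mul_le_mul_of_nonneg_left hav (by positivity : (0 : ℝ) ≤ 4 * l ^ 2)
    refine h4.trans ?_
    have e : 4 * l ^ 2 * (rEF β c / l ^ 3) = 4 * rEF β c * (1 / l) := by field_simp
    rw [e]
    exact mul_le_mul_of_nonneg_left h5 (by positivity)
  have hb := sq_nonneg β
  have h6 := mul_le_mul_of_nonneg_left h2 hb
  have h7 := mul_le_mul_of_nonneg_left h3 hb
  have e : rWF β / √l = β ^ 2 * (1 / √l + (√2 / √l + 2 / √l)) +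
      (β ^ 2 * (√(40 * rEF β c) / √l) + β ^ 2 * (4 * rEF β c * (1 / √l))) := by
    unfold rWF
    rw [← hc]
    ring
  rw [e]
  linarith

/-! ### the last stage -/

/-- the additional fields can be dropped -/
theorem AN_shf_le {n K d : ℕ} {m : ℕ → ℝ} (hd : d ≤ K) (hn : 0 < n) (hm : Exponents K m) (β : ℝ)
    {v : ℝ} (hv : 0 ≤ v) (s : ℕ → ℝ) (hs : ∀ l ≤ K, 0 ≤ s l) :
    AN n K d m β n (shf d v s) ≤ AN n K d m β n (kd d v) +
      (n * (∑ j ∈ Finset.range (K + 1), s j ^ 2) / 2 + n * (s d * (v + s d))) := by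
  obtain ⟨s', hs'⟩ : ∃ s' : ℕ → ℝ, s' = shf d v s := ⟨_, rfl⟩
  obtain ⟨o, ho⟩ : ∃ o : ℕ → ℝ, o = fun l => if l = d then 0 else s l := ⟨_, rfl⟩
  -- the other levels
  have h := ls_add_le (a := st β n (kd d (s d + v))) (b := fd n o) hm (rlv_le (n := n) hd) (lc n)
    (fun e x x' => by
      rcases e with p | p | l
      · rw [fd_a, zero_mul]
      · have e1 : st (K := K) β n (kd d (s d + v)) x' (Sum.inr (Sum.inl p)) =
            if (p.2 : ℕ) < n then kd d (s d + v) p.1 * spin x' p.2 else 0 := by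
          show dsk n _ x' (Sum.inr (Sum.inl p)) + fd n _ x' (Sum.inr (Sum.inl p)) = _
          rw [dsk_b, fd_b, zero_add]
        rw [e1, fd_b, if_pos p.2.2, if_pos p.2.2, ho]
        unfold kd
        by_cases h : (p.1 : ℕ) = d
        · simp [h]
        · simp [h]
      · rw [fd_c, zero_mul])
    (V := n * (∑ j ∈ Finset.range (K + 1), s j ^ 2)) (fun x => by
      rw [Fintype.sum_sum_type, Fintype.sum_sum_type]
      simp only [fd_a, fd_b, fd_c]
      have h1 : ∀ p : Fin (K + 1) × Fin n,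
          (if (p.2 : ℕ) < n then o p.1 * spin x p.2 else 0) ^ 2 ≤ s p.1 ^ 2 := by
        intro p
        rw [if_pos p.2.2, mul_pow]
        have : spin x p.2 ^ 2 = 1 := by
          unfold spin; split_ifs <;> norm_num
        rw [this, mul_one, ho]
        simp only
        split_ifs
        · rw [zero_pow two_ne_zero]
          positivity
        · exact le_rfl
      have h2 := Finset.sum_le_sum fun p (_ : p ∈ (Finset.univ : Finset (Fin (K + 1) × Fin n))) =>
        h1 p
      have h3 : ∑ p : Fin (K + 1) × Fin n, s p.1 ^ 2 = n * ∑ j ∈ Finset.range (K + 1), s j ^ 2 := by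
        rw [Fintype.sum_prod_type]
        simp only [Finset.sum_const, Finset.card_univ, Fintype.card_fin, nsmul_eq_mul]
        rw [← Finset.mul_sum, Finset.sum_range]
      rw [h3] at h2
      simpa using h2)
  have e2 : (st β n (kd d (s d + v)) + fd n o : (Fin n → Bool) → RI n K → ℝ) = st β n s' := by
    funext x e
    rcases e with p | p | l
    · show (dsk n _ x (Sum.inl p) + fd n _ x (Sum.inl p)) + fd n o x (Sum.inl p) =
        dsk n _ x (Sum.inl p) + fd n s' x (Sum.inl p)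
      rw [fd_a, fd_a, fd_a]
      ring
    · show (dsk n _ x (Sum.inr (Sum.inl p)) + fd n _ x (Sum.inr (Sum.inl p))) +
          fd n o x (Sum.inr (Sum.inl p)) =
        dsk n _ x (Sum.inr (Sum.inl p)) + fd n s' x (Sum.inr (Sum.inl p))
      rw [fd_b, fd_b, fd_b, if_pos p.2.2, if_pos p.2.2, if_pos p.2.2, ho, hs', dsk_b]
      unfold kd shf
      by_cases h : (p.1 : ℕ) = d
      · simp only [h, if_true]
        ring
      · simp only [h, if_false]
        ring
    · show (dsk n _ x (Sum.inr (Sum.inr l)) + fd n _ x (Sum.inr (Sum.inr l))) +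
          fd n o x (Sum.inr (Sum.inr l)) =
        dsk n _ x (Sum.inr (Sum.inr l)) + fd n s' x (Sum.inr (Sum.inr l))
      rw [fd_c, fd_c, fd_c]
      ring
  rw [e2] at h
  -- the level `d`
  have hk : kd d (s d + v) d = s d + v := if_pos rfl
  have hk0 : ∀ l ≤ K, 0 ≤ kd d (s d + v) l := by
    intro l hl
    unfold kd
    split_ifs
    · have := hs d hd
      linarith
    · exact le_rfl
  have h3 := AN_tangent (n := n) (N := n) (β := β) hd le_rfl hm (kd d (s d + v)) hd (-(s d))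
  have h4 := (AN_slope (n := n) (N := n) (β := β) hd le_rfl hn hm hk0 hd).2
  have e3 : Function.update (kd d (s d + v)) d (kd d (s d + v) d + -(s d)) = kd d v := by
    funext l
    by_cases h : l = d
    · subst h
      rw [Function.update_self, hk]
      unfold kd
      rw [if_pos rfl]
      ring
    · rw [Function.update_of_ne h]
      unfold kd
      rw [if_neg h, if_neg h]
  rw [e3] at h3
  rw [hk] at h4
  have h5 := mul_le_mul_of_nonneg_left h4 (hs d hd)
  rw [← hs']
  unfold AN SN at h3 ⊢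
  unfold SN at h5
  have e4 : s d * ((n : ℝ) * (s d + v)) = n * (s d * (v + s d)) := by ring
  rw [e4] at h5
  linarith

/-- restriction of the coordinates along an injection -/
theorem gI_restr {ι ι' : Type} [Fintype ι] [Fintype ι'] {f : ι → ι'} (hf : Function.Injective f) :
    (gI ι').map (fun z e => z (f e)) = gI ι := by
  classical
  symm
  refine Measure.pi_eq fun s hs => ?_
  have hm : Measurable fun (z : ι' → ℝ) (e : ι) => z (f e) := by fun_prop
  rw [Measure.map_apply hm (MeasurableSet.univ_pi hs)]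
  have h1 : (fun (z : ι' → ℝ) (e : ι) => z (f e)) ⁻¹' (Set.univ.pi s) =
      Set.univ.pi (fun e' => {x : ℝ | ∀ e, f e = e' → x ∈ s e}) := by
    ext z
    simp only [Set.mem_preimage, Set.mem_univ_pi, Set.mem_ofPred_eq]
    constructor
    · intro h e' e he
      rw [← he]
      exact h e
    · intro h e
      exact h (f e) e rfl
  rw [h1, Measure.pi_pi]
  symm
  refine Fintype.prod_of_injective f hf _ _ (fun e' he' => ?_) (fun e => ?_)
  · have h2 : {x : ℝ | ∀ e, f e = e' → x ∈ s e} = Set.univ := by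
      ext x
      simp only [Set.mem_ofPred_eq, Set.mem_univ, iff_true]
      intro e he
      exact absurd ⟨e, he⟩ he'
    rw [h2]
    exact measure_univ
  · congr 1
    ext x
    simp only [Set.mem_ofPred_eq]
    constructor
    · intro h e2 he2
      rw [hf he2]
      exact h
    · intro h
      exact h e rfl

/-- the coordinates of the model with a field inside `RI` -/
def ri {n K : ℕ} (d : ℕ) : Pair n ⊕ Fin n → RI n K
  | Sum.inl p => Sum.inl p
  | Sum.inr i => Sum.inr (Sum.inl (Fin.ofNat (K + 1) d, i))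

lemma ri_inj {n K d : ℕ} : Function.Injective (ri (n := n) (K := K) d) := by
  intro a b h
  rcases a with a | a <;> rcases b with b | b
  · simp only [ri, Sum.inl.injEq] at h
    rw [h]
  · simp [ri] at h
  · simp [ri] at h
  · simp only [ri, Sum.inr.injEq, Sum.inl.injEq, Prod.mk.injEq, true_and] at h
    rw [h]

/-- **The last stage with a field is the model with a field.** -/
theorem AN_fld {n K d : ℕ} {m : ℕ → ℝ} (hd1 : 1 ≤ d) (hd : d ≤ K) (hm : Exponents K m) (β : ℝ)
    {v : ℝ} (hv : 0 ≤ v) :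
    AN n K d m β n (kd d v) = Vale.Agent.P146.H9.Phn n β (m d) (v ^ 2) - n * Real.log 2 := by
  obtain ⟨e, rfl⟩ : ∃ e, d = e + 1 := ⟨d - 1, by omega⟩
  have hS := ls_regD (X := Fin n → Bool) hm (rlv_le (n := n) hd) (lc n)
    (st β n (kd (e + 1) v))
  have hval : (Fin.ofNat (K + 1) (e + 1) : ℕ) = e + 1 := rr_val hd
  have hst : ∀ (x : Fin n → Bool) (z : RI n K → ℝ), lin (st β n (kd (e + 1) v) x) z =
      ∑ p : Pair n, β / √n * (spin x p.1.1 * spin x p.1.2) * z (Sum.inl p) +
        ∑ i : Fin n, v * spin x i * z (Sum.inr (Sum.inl (Fin.ofNat (K + 1) (e + 1), i))) := by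
    intro x z
    rw [rf_lin]
    have e1 : ∑ p : Fin (K + 1) × Fin n, st β n (kd (e + 1) v) x (Sum.inr (Sum.inl p)) *
        z (Sum.inr (Sum.inl p)) =
        ∑ i : Fin n, v * spin x i * z (Sum.inr (Sum.inl (Fin.ofNat (K + 1) (e + 1), i))) := by
      rw [Fintype.sum_prod_type, Finset.sum_eq_single (Fin.ofNat (K + 1) (e + 1))]
      · refine Finset.sum_congr rfl fun i _ => ?_
        have e2 : st (K := K) β n (kd (e + 1) v) x
            (Sum.inr (Sum.inl (Fin.ofNat (K + 1) (e + 1), i))) = v * spin x i := by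
          show dsk n _ x (Sum.inr (Sum.inl _)) + fd n _ x (Sum.inr (Sum.inl _)) = _
          rw [dsk_b, fd_b, if_pos i.2, zero_add]
          unfold kd
          rw [if_pos hval]
        rw [e2]
      · intro l _ hl
        refine Finset.sum_eq_zero fun i _ => ?_
        have e2 : st (K := K) β n (kd (e + 1) v) x (Sum.inr (Sum.inl (l, i))) = 0 := by
          show dsk n _ x (Sum.inr (Sum.inl _)) + fd n _ x (Sum.inr (Sum.inl _)) = _
          rw [dsk_b, fd_b, if_pos i.2, zero_add]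
          unfold kd
          rw [if_neg, zero_mul]
          intro h
          exact hl (Fin.ext (h.trans hval.symm))
        rw [e2, zero_mul]
      · intro h
        exact absurd (Finset.mem_univ _) h
    have e2 : ∑ l : Fin (K + 1), st β n (kd (e + 1) v) x (Sum.inr (Sum.inr l)) *
        z (Sum.inr (Sum.inr l)) = 0 :=
      Finset.sum_eq_zero fun p _ => by
        simp only [st, dsk_b, fd_c, Pi.add_apply, zero_mul, add_zero]
    rw [e1, e2, add_zero]
    congr 1
    refine Finset.sum_congr rfl fun p _ => ?_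
    simp only [st, dsk_a, fd_a, Pi.add_apply, add_zero]
    rw [if_pos p.1.2.2]
  have htop : ∀ z : RI n K → ℝ, (SN n K (e + 1) m β n (kd (e + 1) v)).top z =
      Vale.Agent.P146.H9.Fv n β (v ^ 2) (fun a => z (ri (e + 1) a)) - n * Real.log 2 := by
    intro z
    show Real.log (∑ x : Fin n → Bool, Real.exp (lin (st β n (kd (e + 1) v) x) z + lc n)) = _
    have e1 : ∀ x : Fin n → Bool, Real.exp (lin (st β n (kd (e + 1) v) x) z + lc n) =
        Real.exp (lin (st β n (kd (e + 1) v) x) z) * Real.exp (lc n) := fun x => Real.exp_add _ _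
    simp only [e1]
    rw [← Finset.sum_mul, Real.log_mul (Finset.sum_pos (fun x _ => Real.exp_pos _)
      Finset.univ_nonempty).ne' (Real.exp_pos _).ne', Real.log_exp]
    have e0 : (fun a => z (ri (e + 1) a)) = (Sum.elim (fun p => z (Sum.inl p))
        (fun i => z (Sum.inr (Sum.inl (Fin.ofNat (K + 1) (e + 1), i)))) :
          Pair n ⊕ Fin n → ℝ) := by
      funext a
      rcases a with a | a <;> rfl
    have e2 : Real.log (∑ x : Fin n → Bool, Real.exp (lin (st β n (kd (e + 1) v) x) z)) =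
        Vale.Agent.P146.H9.Fv n β (v ^ 2) (fun a => z (ri (e + 1) a)) := by
      rw [e0, Vale.Agent.P146.H9.Fv_elim]
      unfold Vale.Agent.P146.H877.FH
      congr 1
      rw [← Equiv.sum_comp (Equiv.arrowCongr (Equiv.refl (Fin n)) bu)]
      refine Finset.sum_congr rfl fun x _ => ?_
      congr 1
      rw [hst]
      have e3 : ∀ i : Fin n, (((Equiv.arrowCongr (Equiv.refl (Fin n)) bu x i : ℤˣ) : ℤ) : ℝ) =
          spin x i := by
        intro i
        have e4 : Equiv.arrowCongr (Equiv.refl (Fin n)) bu x i = bu (x i) := rfl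
        rw [e4, bu_cast]
        rfl
      congr 1
      · unfold hamiltonian
        rw [← mul_assoc, Finset.mul_sum]
        refine Finset.sum_congr rfl fun p _ => ?_
        rw [e3, e3]
        ring
      · refine Finset.sum_congr rfl fun i _ => ?_
        rw [e3, Real.sqrt_sq hv]
        simp only [Pi.smul_apply, smul_eq_mul]
        ring
    rw [e2]
    unfold lc
    ring
  have hdep : ∀ x : Fin n → Bool, Dep (SN n K (e + 1) m β n (kd (e + 1) v)).lev (e + 1)
      fun z => (SN n K (e + 1) m β n (kd (e + 1) v)).H z x := by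
    intro x z w
    show lin (st β n (kd (e + 1) v) x) (mix (rlv (e + 1)) (e + 1) z w) + lc n =
      lin (st β n (kd (e + 1) v) x) z + lc n
    rw [hst, hst]
    congr 2
    · refine Finset.sum_congr rfl fun p _ => ?_
      congr 1
      exact if_pos (le_refl (e + 1))
    · refine Finset.sum_congr rfl fun p _ => ?_
      congr 1
      exact if_pos (show rlv (e + 1) (Sum.inr (Sum.inl (Fin.ofNat (K + 1) (e + 1), p)) :
        RI n K) ≤ e + 1 from hval.le)
  have hdep' : ∀ z w x, (SN n K (e + 1) m β n (kd (e + 1) v)).H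
      (mix (SN n K (e + 1) m β n (kd (e + 1) v)).lev e z w) x =
      (SN n K (e + 1) m β n (kd (e + 1) v)).H w x := by
    intro z w x
    show lin (st β n (kd (e + 1) v) x) (mix (rlv (e + 1)) e z w) + lc n =
      lin (st β n (kd (e + 1) v) x) w + lc n
    rw [hst, hst]
    congr 2
    · refine Finset.sum_congr rfl fun p _ => ?_
      congr 1
      exact if_neg (show ¬ (e + 1 ≤ e) by omega)
    · refine Finset.sum_congr rfl fun p _ => ?_
      congr 1
      exact if_neg (show ¬ rlv (e + 1) (Sum.inr (Sum.inl (Fin.ofNat (K + 1) (e + 1), p)) :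
        RI n K) ≤ e from by
          intro h
          have h' : (Fin.ofNat (K + 1) (e + 1) : ℕ) ≤ e := h
          omega)
  have h1 : AN n K (e + 1) m β n (kd (e + 1) v) = 1 / m (e + 1) * Real.log
      (∫ z, Real.exp (m (e + 1) * (SN n K (e + 1) m β n (kd (e + 1) v)).top z)
        ∂(gI (RI n K))) :=
    fe_level hS.toReg hd hdep hdep'
  have hm0 : 0 < m (e + 1) := hS.toReg.m_pos (by omega) (by show e + 1 ≤ K + 1; omega)
  rw [h1]
  simp only [htop]
  have hG : EG fun w : Pair n ⊕ Fin n → ℝ =>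
      Real.exp (m (e + 1) * Vale.Agent.P146.H9.Fv n β (v ^ 2) w) :=
    Vale.Agent.P146.H9.eg_expF n β _ _
  have h2 : ∫ z : RI n K → ℝ, Real.exp (m (e + 1) *
      (Vale.Agent.P146.H9.Fv n β (v ^ 2) (fun a => z (ri (e + 1) a)) -
      n * Real.log 2)) ∂(gI (RI n K)) = Real.exp (-(m (e + 1) * (n * Real.log 2))) *
      ∫ w, Real.exp (m (e + 1) * Vale.Agent.P146.H9.Fv n β (v ^ 2) w) ∂(gI (Pair n ⊕ Fin n)) := by
    have h3 : ∀ z : RI n K → ℝ, Real.exp (m (e + 1) *
        (Vale.Agent.P146.H9.Fv n β (v ^ 2) (fun a => z (ri (e + 1) a)) - n * Real.log 2)) =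
        Real.exp (-(m (e + 1) * (n * Real.log 2))) *
        Real.exp (m (e + 1) * Vale.Agent.P146.H9.Fv n β (v ^ 2) (fun a => z (ri (e + 1) a))) := by
      intro z
      rw [← Real.exp_add]
      congr 1
      ring
    simp only [h3]
    rw [integral_const_mul]
    congr 1
    rw [← gI_restr (ri_inj (n := n) (K := K) (d := e + 1)), integral_map]
    · exact (measurable_pi_lambda _ fun a => measurable_pi_apply _).aemeasurable
    · rw [gI_restr ri_inj]
      exact hG.integrable.aestronglyMeasurable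
  rw [h2]
  have hpos : 0 < ∫ w, Real.exp (m (e + 1) * Vale.Agent.P146.H9.Fv n β (v ^ 2) w)
      ∂(gI (Pair n ⊕ Fin n)) := integral_exp_pos hG.integrable
  rw [Real.log_mul (Real.exp_pos _).ne' hpos.ne', Real.log_exp]
  unfold Vale.Agent.P146.H9.Phn
  rw [Vale.Agent.P146.H9.LPhi_eq]
  field_simp
  ring

/-- **The rate with a field.** -/
theorem rate_fld {β : ℝ} (hβ : 0 < β) : ∃ C : ℝ, 0 ≤ C ∧ ∀ (K d : ℕ) (V Lb : ℝ),
    1 ≤ d → d ≤ K → 0 ≤ V → V ≤ 1 →
    (∀ q : ℕ → ℝ, Path K q → q K = 1 → (∀ l < d, q l = 0) → Lb ≤ PSV β K d (me K) V q) →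
    ∀ n : ℕ, (K + 1) ^ 18 ≤ n →
      n * (Real.log 2 + Lb) ≤
        Vale.Agent.P146.H9.Phn n β (me K d) V + C * (n / √((K + 1 : ℕ) : ℝ)) := by
  have hW := rWF_nonneg β
  refine ⟨5 / 2 + rWF β + (β ^ 2 / 2 + 1 / 2), by positivity, ?_⟩
  intro K d V Lb hd1 hd hV hV1 hLb n hn
  obtain ⟨v, hv⟩ : ∃ v : ℝ, v = √V := ⟨_, rfl⟩
  have hv0 : 0 ≤ v := by rw [hv]; exact Real.sqrt_nonneg V
  have hv2 : v ^ 2 = V := by rw [hv]; exact Real.sq_sqrt hV
  have hv1 : v ≤ 1 := by
    rw [hv]
    exact Real.sqrt_le_one.2 hV1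
  obtain ⟨E, hE⟩ : ∃ E : ℝ, E = Vale.Agent.P146.H9.Phn n β (me K d) V := ⟨_, rfl⟩
  rw [← hE]
  obtain ⟨l, hl⟩ : ∃ l : ℝ, l = ((K + 1 : ℕ) : ℝ) := ⟨_, rfl⟩
  have hl1 : 1 ≤ l := by rw [hl]; push_cast; linarith [Nat.cast_nonneg (α := ℝ) K]
  have hl0 : 0 < l := by linarith
  have hsl : 0 < √l := Real.sqrt_pos.2 hl0
  have hn0 : 0 < n := lt_of_lt_of_le (by positivity) hn
  have hnr : l ^ 18 ≤ n := by rw [hl]; exact_mod_cast hn
  have hnpos : (0 : ℝ) < n := by exact_mod_cast hn0
  obtain ⟨N0, hN0⟩ : ∃ N0 : ℕ, N0 = (K + 1) ^ 16 := ⟨_, rfl⟩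
  have hN0n : N0 ≤ n := by
    rw [hN0]
    exact le_trans (Nat.pow_le_pow_right (by omega) (by norm_num)) hn
  have hN0r : (N0 : ℝ) = l ^ 16 := by rw [hN0, hl]; push_cast; ring
  obtain ⟨G, hG⟩ : ∃ G : (Fin (K + 1) → Fin ((K + 1) ^ 3)) → ℕ → ℝ,
      G = fun k => gp (1 / (2 * ((K + 1 : ℕ) : ℝ))) (1 / (2 * ((K + 1 : ℕ) : ℝ) ^ 4)) k :=
    ⟨_, rfl⟩
  have hM : 0 < (K + 1) ^ 3 := by positivity
  have hne : Nonempty (Fin (K + 1) → Fin ((K + 1) ^ 3)) := ⟨fun _ => ⟨0, hM⟩⟩
  -- the sum over the stages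
  have hsum : ∑ N ∈ Finset.Ico N0 n, (Lb - rWF β / √l) ≤
      ∑ N ∈ Finset.Ico N0 n, (rAv (fun k => AN n K d (me K) β (N + 1) (shf d v (G k))) -
        rAv (fun k => AN n K d (me K) β N (shf d v (G k)))) := by
    refine Finset.sum_le_sum fun N hN => ?_
    rw [Finset.mem_Ico] at hN
    have h := rr_step_avgF (n := n) (K := K) (N := N) (v := v) hd1 hd hβ hv0 hv1
      (by rw [hv2]; exact hLb) hN.2 (by
      rw [← hl, ← hN0r]; exact_mod_cast hN.1)
    rw [rAv_sub, ← hl] at h
    rw [hG, ← hl]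
    linarith
  rw [Finset.sum_const, Nat.card_Ico, nsmul_eq_mul, Nat.cast_sub hN0n,
    Finset.sum_Ico_sub (fun N => rAv (fun k => AN n K d (me K) β N (shf d v (G k)))) hN0n] at hsum
  -- the ends
  have h0 : 0 ≤ rAv (fun k => AN n K d (me K) β N0 (shf d v (G k))) := by
    have := rAv_mono (f := fun _ => (0 : ℝ)) (g := fun k => AN n K d (me K) β N0 (shf d v (G k)))
      fun k => rr_nonneg hd (me_exp K) β N0 (shf d v (G k))
    rw [rAv_const] at this
    exact this
  have hll : 1 / l ≤ 1 / √l := by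
    apply one_div_le_one_div_of_le hsl
    rw [Real.sqrt_le_left hl0.le]
    exact le_self_pow₀ hl1 (by norm_num)
  have h1 : rAv (fun k => AN n K d (me K) β n (shf d v (G k))) ≤
      (E - n * Real.log 2) + 5 / 2 * n * (1 / √l) := by
    have h2 : ∀ k, AN n K d (me K) β n (shf d v (G k)) ≤
        (E - n * Real.log 2) + 5 / 2 * n * (1 / √l) := by
      intro k
      have hGk : ∀ j ≤ K, 0 ≤ G k j ∧ G k j ≤ 1 / l := by
        intro j hj
        have h6 := rr_gp_le k hj
        rw [hG]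
        simp only
        rw [← hl] at h6 ⊢
        have h7 : 0 ≤ 1 / (2 * l) := by positivity
        exact ⟨h7.trans h6.1, h6.2⟩
      have h3 := AN_shf_le (n := n) hd hn0 (me_exp K) β hv0 (G k) fun j hj => (hGk j hj).1
      rw [AN_fld hd1 hd (me_exp K) β hv0, hv2, ← hE] at h3
      have h4 : ∑ j ∈ Finset.range (K + 1), G k j ^ 2 ≤ 1 / √l := by
        have h5 : ∀ j ∈ Finset.range (K + 1), G k j ^ 2 ≤ (1 / l) ^ 2 := by
          intro j hj
          have h6 := hGk j (Nat.le_of_lt_succ (Finset.mem_range.1 hj))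
          exact pow_le_pow_left₀ h6.1 h6.2 2
        refine (Finset.sum_le_sum h5).trans ?_
        rw [Finset.sum_const, Finset.card_range, nsmul_eq_mul, ← hl]
        have h6 : l * (1 / l) ^ 2 = 1 / l := by field_simp
        rw [h6]
        exact hll
      have h5 := mul_le_mul_of_nonneg_left h4 (by positivity : (0 : ℝ) ≤ n / 2)
      have h6 : G k d * (v + G k d) ≤ 1 / √l * 2 := by
        have h7 := hGk d hd
        have h8 : 1 / l ≤ 1 := by rw [div_le_one hl0]; exact hl1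
        exact mul_le_mul (h7.2.trans hll) (by linarith) (by linarith) (by positivity)
      have h7 := mul_le_mul_of_nonneg_left h6 hnpos.le
      refine h3.trans ?_
      have e : (n : ℝ) * (∑ j ∈ Finset.range (K + 1), G k j ^ 2) / 2 =
          n / 2 * ∑ j ∈ Finset.range (K + 1), G k j ^ 2 := by ring
      rw [e]
      linarith
    have h3 := rAv_mono h2
    rw [rAv_const] at h3
    exact h3
  -- conclusion
  have hLbu := Lb_leF hd hV hV1 hLb
  have h2 : (N0 : ℝ) ≤ n * (1 / √l) := by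
    rw [hN0r, mul_one_div, le_div_iff₀ hsl]
    have h3 : √l ≤ l ^ 2 := by
      rw [Real.sqrt_le_left (by positivity), ← pow_mul]
      exact le_self_pow₀ hl1 (by norm_num)
    have h4 : l ^ 16 * √l ≤ l ^ 16 * l ^ 2 := mul_le_mul_of_nonneg_left h3 (by positivity)
    have h5 : l ^ 16 * l ^ 2 = l ^ 18 := by ring
    linarith
  have h3 : (N0 : ℝ) * Lb ≤ n * (1 / √l) * (β ^ 2 / 2 + 1 / 2) := by
    have hN00 : (0 : ℝ) ≤ N0 := Nat.cast_nonneg _
    exact (mul_le_mul_of_nonneg_left hLbu hN00).trans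
      (mul_le_mul_of_nonneg_right h2 (by positivity))
  have h4 : ((n : ℝ) - N0) * (rWF β / √l) ≤ n * (1 / √l) * rWF β := by
    have hN00 : (0 : ℝ) ≤ N0 := Nat.cast_nonneg _
    have h5 : 0 ≤ rWF β / √l := by positivity
    have h6 := mul_nonneg hN00 h5
    have e : (n : ℝ) * (1 / √l) * rWF β = n * (rWF β / √l) := by ring
    rw [e]
    linarith
  rw [← hl]
  have e : (5 / 2 + rWF β + (β ^ 2 / 2 + 1 / 2)) * (n / √l) =
      5 / 2 * n * (1 / √l) + n * (1 / √l) * rWF β + n * (1 / √l) * (β ^ 2 / 2 + 1 / 2) := by ring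
  rw [e]
  linarith

/-- **The rate with a field**, in the letters of the grid `gm`. -/
theorem rate_gm {b : ℝ} (hb : 0 < b) : ∃ C : ℝ, 0 ≤ C ∧ ∀ (K d : ℕ) (V Lb : ℝ),
    1 ≤ d → d ≤ K → 0 ≤ V → V ≤ 1 →
    (∀ q : ℕ → ℝ, Path K q → q K = 1 → (∀ l < d, q l = 0) →
      Lb ≤ b ^ 2 / 4 * (1 + ∑ i ∈ Finset.range (K + 1),
        (Vale.Agent.P146.Pw2.gm K (i + 1) - Vale.Agent.P146.Pw2.gm K i) * q i ^ 2) +
        spinPart K (Vale.Agent.P146.Pw2.gm K) (fun l => if l < d then 0 else b ^ 2 * q l + V) +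
        V / 2) →
    ∀ n : ℕ, (K + 1) ^ 18 ≤ n →
      n * (Real.log 2 + Lb) ≤
        Vale.Agent.P146.H9.Phn n b (Vale.Agent.P146.Pw2.gm K d) V +
          C * (n / √((K : ℝ) + 1)) := by
  obtain ⟨C, hC, h⟩ := rate_fld hb
  refine ⟨C, hC, fun K d V Lb hd1 hd hV hV1 hLb n hn => ?_⟩
  have e := Vale.Agent.P146.Ld.cor_me K
  have h1 := h K d V Lb hd1 hd hV hV1 (fun q hq hqK hq0 => by
    have h2 := hLb q hq hqK hq0
    unfold PSV
    rw [e]
    exact h2) n hn
  rw [e] at h1
  push_cast at h1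
  exact h1

end Vale.Agent.P146.Ub.Ld.F4
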