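import Vale.Agent.P146.H420B.GgrB

/-!
# GGR: the defect `Va` tested with the magnetisation `cx K ⟨a τ j⟩`

`Xr`: the response of `cx K ⟨a τ j⟩` to the modulated field at the site `i`;
`pd_M`: the derivative in the revealed coordinate `md i l` is `cG l * Xr`;
`ggr_M`: for `K` which contains exactly the modulated coordinates `md i l`, `i ∈ A`, `l ∈ Lr`,
`|∑ j ∈ T0, ex (M j * cx K (Va j))|
  ≤ (θ * (∑ j l ∈ T0, ex (cx K ⟨τ j τ l⟩)^2)^(1/4) + √(#T0 ((|r0|+1)(1+η))^2 ex ⟨1-I⟩)) *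
      √(∑ j ∈ T0, ex (M j)^2)
    + (∑ l ∈ Lr, cG l^2) / ((1-x) v n) * √(∑ j i, ex Xr^2) * √(∑ j i, ex (cx K ⟨τ j I σ i⟩)^2)`.
-/

open MeasureTheory ProbabilityTheory Filter

namespace Vale.Agent.P146.H420B

open Vale.Agent.P157.Lv hiding Dep
open Vale.Agent.P146.H196 Vale.Agent.P146.H646 Vale.Agent.P146.H347 Vale.Agent.P146.H325

set_option linter.unusedSectionVars false

variable {ι s L J : Type} [Fintype ι] [DecidableEq ι] [Fintype s] [DecidableEq s] [Fintype L]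
  [DecidableEq L] [Fintype J] [DecidableEq J]
  {Ω : Type} [MeasurableSpace Ω] {μ : Measure Ω} {S : ι → Ω → ℝ} {M0 x : ℝ}
  {md : s → L → ι} {cG : L → ℝ} {σ : s → Ω → ℝ} {a I sg : Ω → ℝ} {lam c r0 η : ℝ}
  {τ : J → Ω → ℝ}

/-- the response of `cx K ⟨a τ j⟩` to the modulated field at the site `i` -/
noncomputable def Xr (μ : Measure Ω) (S : ι → Ω → ℝ) (x : ℝ) (K : Finset ι) (σ : s → Ω → ℝ)
    (a : Ω → ℝ) (τ : J → Ω → ℝ) (j : J) (i : s) (z : ι → ℝ) : ℝ :=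
  cx (g1 ι) K (Zxm μ 1 S x) (avm μ 1 S (fun w => a w * τ j w * (a w * σ i w))) z
    - (1 - x) * cx (g1 ι) K (Zxm μ 1 S x) (fun y => avm μ 1 S (fun w => a w * τ j w) y *
        avm μ 1 S (fun w => a w * σ i w) y) z
    - x * (cx (g1 ι) K (Zxm μ 1 S x) (avm μ 1 S (fun w => a w * τ j w)) z *
        cx (g1 ι) K (Zxm μ 1 S x) (avm μ 1 S (fun w => a w * σ i w)) z)

section

variable (hG : GM μ S M0) (hM : MS S md cG σ a I sg)
include hG hM

lemma bm_Xr (bt : ∀ j, Bm (τ j)) (K : Finset ι) (j : J) (i : s) :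
    BM (Xr μ S x K σ a τ j i) := by
  have hw := H347.wt hG 1 x
  have b1 := hM.ba.mul (bt j)
  have b2 := hM.ba.mul (hM.bs i)
  exact ((hw.bm_cx K (H347.bm hG 1 (b1.mul b2))).sub ((BM.const _).mul (hw.bm_cx K
    ((H347.bm hG 1 b1).mul (H347.bm hG 1 b2))))).sub ((BM.const _).mul
      ((hw.bm_cx K (H347.bm hG 1 b1)).mul (hw.bm_cx K (H347.bm hG 1 b2))))

/-- the derivative of the magnetisation in a revealed modulated coordinate -/
theorem pd_M (bt : ∀ j, Bm (τ j)) {K : Finset ι} {i : s} {l : L} (he : md i l ∈ K) (j : J) :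
    PD (md i l) (cx (g1 ι) K (Zxm μ 1 S x) (avm μ 1 S (fun w => a w * τ j w)))
      (fun z => cG l * Xr μ S x K σ a τ j i z) := by
  have hw := H347.wt hG 1 x
  have b1 := hM.ba.mul (bt j)
  have b2 := hM.ba.mul (hM.bs i)
  have bS : Bm (S (md i l)) := hG.bS _
  set e := md i l with hedef
  have e1 : ∀ u, avm μ 1 S (S e) u = cG l * avm μ 1 S (fun w => a w * σ i w) u := by
    intro u
    rw [← H196.av_mul]
    congr 1
    funext w
    rw [hedef, hM.en]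
  have e2 : ∀ u, avm μ 1 S (fun w => a w * τ j w * S e w) u =
      cG l * avm μ 1 S (fun w => a w * τ j w * (a w * σ i w)) u := by
    intro u
    rw [← H196.av_mul]
    congr 1
    funext w
    rw [hedef, hM.en]
    ring
  have hd : PD e (Zxm μ 1 S x) (fun z => Zxm μ 1 S x z * (x * avm μ 1 S (S e) z)) :=
    (pd_of_fd (hG.fd_Zx 1 x) e).congr fun y => by ring
  have h1 := H205.pd_cx he hw hd (hG.eg_Zx 1 x) (EG.const_mul x (hG.eg_av 1 bS))
    (hG.pd_av 1 e b1) (hG.eg_av 1 b1)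
    (((hG.eg_av 1 (b1.mul bS)).sub ((hG.eg_av 1 b1).mul (hG.eg_av 1 bS))).const_mul 1)
  refine h1.congr fun y => ?_
  unfold Xr
  set A : (ι → ℝ) → ℝ := avm μ 1 S (fun w => a w * τ j w) with hA
  set B : (ι → ℝ) → ℝ := avm μ 1 S (fun w => a w * σ i w) with hB
  set C : (ι → ℝ) → ℝ := avm μ 1 S (fun w => a w * τ j w * (a w * σ i w)) with hC
  have f1 : (fun y => 1 * (avm μ 1 S (fun w => a w * τ j w * S e w) y - A y *
      avm μ 1 S (S e) y) + A y * (x * avm μ 1 S (S e) y)) =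
      fun y => cG l * (C y - (1 - x) * (A y * B y)) := by
    funext y
    rw [e1, e2]
    ring
  have f2 : (fun y => x * avm μ 1 S (S e) y) = fun y => (x * cG l) * B y := by
    funext y
    rw [e1]
    ring
  rw [f1, f2, cx_const_mul hw, cx_const_mul hw,
    cx_sub hw (H347.bm hG 1 (b1.mul b2)) ((BM.const _).mul
      ((H347.bm hG 1 b1).mul (H347.bm hG 1 b2))), cx_const_mul hw]
  ring

/-- the stuck part in the pair functions -/
lemma cx_I_le (bt : ∀ j, Bm (τ j)) (ht : ∀ j w, |τ j w| ≤ 1) (K : Finset ι) (j : J) (i : s)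
    (z : ι → ℝ) :
    cx (g1 ι) K (Zxm μ 1 S x) (avm μ 1 S (fun w => τ j w * I w * σ i w)) z ^ 2 ≤
      2 * cx (g1 ι) K (Zxm μ 1 S x) (avm μ 1 S (fun w => τ j w * σ i w)) z ^ 2 +
        2 * cx (g1 ι) K (Zxm μ 1 S x) (avm μ 1 S (fun w => 1 - I w)) z := by
  have hw := H347.wt hG 1 x
  have bI1 : Bm fun w => 1 - I w := (Bm.const 1).sub hM.bI
  have b1 : Bm fun w => τ j w * σ i w := (bt j).mul (hM.bs i)
  have b2 : Bm fun w => τ j w * (1 - I w) * σ i w := ((bt j).mul bI1).mul (hM.bs i)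
  have hs1 : ∀ i p, |σ i p| ≤ 1 := fun i p => by
    have := hM.s2 i p
    rw [← sq_abs] at this
    nlinarith [abs_nonneg (σ i p)]
  have e1 : avm μ 1 S (fun w => τ j w * I w * σ i w) = fun z =>
      avm μ 1 S (fun w => τ j w * σ i w) z -
        avm μ 1 S (fun w => τ j w * (1 - I w) * σ i w) z := by
    funext z
    rw [← hG.av_sub 1 b1 b2]
    congr 1
    funext w
    ring
  rw [e1, cx_sub hw (H347.bm hG 1 b1) (H347.bm hG 1 b2)]
  have h1 : cx (g1 ι) K (Zxm μ 1 S x) (avm μ 1 S (fun w => τ j w * (1 - I w) * σ i w)) z ^ 2 ≤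
      cx (g1 ι) K (Zxm μ 1 S x) (avm μ 1 S (fun w => 1 - I w)) z := by
    refine (cx_sq_le hw (H347.bm hG 1 b2) z).trans ?_
    refine cx_mono hw (H347.bm hG 1 b2).sq (H347.bm hG 1 bI1) (fun y => ?_) z
    refine (hG.av_sq_le 1 b2 y).trans ?_
    refine hG.av_mono 1 (b2.pow 2) bI1 (fun w => ?_) y
    have h2 : (τ j w) ^ 2 ≤ 1 := by
      rw [← sq_abs]; exact pow_le_one₀ (abs_nonneg _) (ht j w)
    have h3 := hM.s2 i w
    have h4 := hM.I0 w
    have h5 := hM.I1 w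
    have h6 : (τ j w * (1 - I w) * σ i w) ^ 2 = τ j w ^ 2 * (1 - I w) ^ 2 := by
      rw [mul_pow, mul_pow, h3, mul_one]
    rw [h6]
    have h7 : (1 - I w) ^ 2 ≤ 1 - I w := by nlinarith
    have h8 : 0 ≤ (1 - I w) ^ 2 := sq_nonneg _
    nlinarith
  nlinarith [sq_nonneg (cx (g1 ι) K (Zxm μ 1 S x) (avm μ 1 S (fun w => τ j w * σ i w)) z +
    cx (g1 ι) K (Zxm μ 1 S x) (avm μ 1 S (fun w => τ j w * (1 - I w) * σ i w)) z)]

/-- **GGR for the magnetisation.** -/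
theorem ggr_M [Nonempty s] (hv : 0 < vG cG) (hx : x < 1) (hlam : 0 ≤ lam) (hη : 0 ≤ η)
    (ha : ∀ w, |a w| ≤ 1 + η) (bt : ∀ j, Bm (τ j)) (ht : ∀ j w, |τ j w| ≤ 1)
    (hT : ∀ j, AIbp μ S md cG σ a I sg lam c (τ j))
    (hc : c = vG cG * Fintype.card s * (1 - (1 - x) * r0)) {K : Finset ι} {A : Finset s}
    {Lr : Finset L} (hK : ∀ i l, md i l ∈ K ↔ i ∈ A ∧ l ∈ Lr) (T0 : Finset J) :
    |∑ j ∈ T0, ex (g1 ι) (Zxm μ 1 S x) (fun z =>
        cx (g1 ι) K (Zxm μ 1 S x) (avm μ 1 S (fun w => a w * τ j w)) z *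
        cx (g1 ι) K (Zxm μ 1 S x) (Va μ 1 r0 S σ a τ j) z)|
      ≤ (lam / ((1 - x) * (vG cG * Fintype.card s)) *
            √(√(∑ j ∈ T0, ∑ l ∈ T0, ex (g1 ι) (Zxm μ 1 S x)
            (fun z => cx (g1 ι) K (Zxm μ 1 S x) (avm μ 1 S (fun w => τ j w * τ l w)) z ^ 2)))
          + √(T0.card * ((|r0| + 1) * (1 + η)) ^ 2 *
            ex (g1 ι) (Zxm μ 1 S x) (avm μ 1 S (fun w => 1 - I w)))) *
          √(∑ j ∈ T0, ex (g1 ι) (Zxm μ 1 S x) (fun z =>
            cx (g1 ι) K (Zxm μ 1 S x) (avm μ 1 S (fun w => a w * τ j w)) z ^ 2))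
        + (∑ l ∈ Lr, cG l ^ 2) / ((1 - x) * (vG cG * Fintype.card s)) *
          (√(∑ j ∈ T0, ∑ i ∈ A, ex (g1 ι) (Zxm μ 1 S x) (fun z => Xr μ S x K σ a τ j i z ^ 2)) *
           √(∑ j ∈ T0, ∑ i ∈ A, ex (g1 ι) (Zxm μ 1 S x) (fun z =>
            cx (g1 ι) K (Zxm μ 1 S x) (avm μ 1 S (fun w => τ j w * I w * σ i w)) z ^ 2))) := by
  have hn : (0 : ℝ) < Fintype.card s := by exact_mod_cast Fintype.card_pos
  have hx1 : 0 < 1 - x := by linarith
  have hw := H347.wt hG 1 x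
  -- the vector and its derivatives
  set Q : T0 → (ι → ℝ) → ℝ := fun j => cx (g1 ι) K (Zxm μ 1 S x)
    (avm μ 1 S (fun w => a w * τ j w)) with hQdef
  set Q1 : T0 → s → L → (ι → ℝ) → ℝ := fun j i l z =>
    if md i l ∈ K then cG l * Xr μ S x K σ a τ j i z else 0 with hQ1def
  have bQ : ∀ j, BM (Q j) := fun j => hw.bm_cx K (H347.bm hG 1 (hM.ba.mul (bt j)))
  have dQ : ∀ j, H646.Dep K (Q j) := fun j => dep_cx K
  have hd : ∀ j i l, PD (md i l) (Q j) (Q1 j i l) := by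
    intro j i l
    by_cases he : md i l ∈ K
    · simp only [hQ1def, if_pos he]
      exact pd_M hG hM bt he j
    · simp only [hQ1def, if_neg he]
      refine PD.of_indep fun u r => ?_
      refine H347.Dep.congr (dQ j) fun e' he' => ?_
      refine Function.update_of_ne ?_ _ _
      rintro rfl
      exact he he'
  have bQ1 : ∀ j i l, BM (Q1 j i l) := by
    intro j i l
    by_cases he : md i l ∈ K
    · simp only [hQ1def, if_pos he]
      exact (BM.const _).mul (bm_Xr hG hM bt K j i)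
    · simp only [hQ1def, if_neg he]
      exact BM.const 0
  have key := ggr_ip (J := T0) (τ := fun j : T0 => τ j) hG hM hv hx hlam hη ha
    (fun j => bt j) (fun j => ht j) (fun j => hT j) hc bQ dQ hd bQ1
  -- sums over the subtype
  have s1 : ∑ j : T0, ex (g1 ι) (Zxm μ 1 S x) (fun z => Q j z *
        cx (g1 ι) K (Zxm μ 1 S x) (Va μ 1 r0 S σ a (fun j : T0 => τ j) j) z) =
      ∑ j ∈ T0, ex (g1 ι) (Zxm μ 1 S x) (fun z =>
        cx (g1 ι) K (Zxm μ 1 S x) (avm μ 1 S (fun w => a w * τ j w)) z *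
        cx (g1 ι) K (Zxm μ 1 S x) (Va μ 1 r0 S σ a τ j) z) :=
    Finset.sum_coe_sort T0 (fun j => ex (g1 ι) (Zxm μ 1 S x) (fun z =>
        cx (g1 ι) K (Zxm μ 1 S x) (avm μ 1 S (fun w => a w * τ j w)) z *
        cx (g1 ι) K (Zxm μ 1 S x) (Va μ 1 r0 S σ a τ j) z))
  have s2 : ∑ j : T0, ∑ l : T0, ex (g1 ι) (Zxm μ 1 S x)
        (fun z => cx (g1 ι) K (Zxm μ 1 S x) (avm μ 1 S (fun w => τ j w * τ l w)) z ^ 2) =
      ∑ j ∈ T0, ∑ l ∈ T0, ex (g1 ι) (Zxm μ 1 S x)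
        (fun z => cx (g1 ι) K (Zxm μ 1 S x) (avm μ 1 S (fun w => τ j w * τ l w)) z ^ 2) := by
    rw [← Finset.sum_coe_sort T0]
    exact Finset.sum_congr rfl fun j _ => Finset.sum_coe_sort T0 (fun l => ex (g1 ι)
      (Zxm μ 1 S x) (fun z => cx (g1 ι) K (Zxm μ 1 S x)
        (avm μ 1 S (fun w => τ j w * τ l w)) z ^ 2))
  have s3 : ∑ j : T0, ex (g1 ι) (Zxm μ 1 S x) (fun z => Q j z ^ 2) =
      ∑ j ∈ T0, ex (g1 ι) (Zxm μ 1 S x) (fun z =>
        cx (g1 ι) K (Zxm μ 1 S x) (avm μ 1 S (fun w => a w * τ j w)) z ^ 2) :=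
    Finset.sum_coe_sort T0 (fun j => ex (g1 ι) (Zxm μ 1 S x) (fun z =>
        cx (g1 ι) K (Zxm μ 1 S x) (avm μ 1 S (fun w => a w * τ j w)) z ^ 2))
  rw [s1, s2, s3, Fintype.card_coe] at key
  refine key.trans (add_le_add le_rfl ?_)
  -- the new term
  set vr := ∑ l ∈ Lr, cG l ^ 2 with hvr
  have hvr0 : 0 ≤ vr := Finset.sum_nonneg fun _ _ => sq_nonneg _
  have bP : ∀ j i, BM (avm μ 1 S (fun w => τ j w * I w * σ i w)) := fun j i =>
    H347.bm hG 1 (((bt j).mul hM.bI).mul (hM.bs i))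
  have bX : ∀ j i, BM (Xr μ S x K σ a τ j i) := fun j i => bm_Xr hG hM bt K j i
  have dX : ∀ j i, H646.Dep K (Xr μ S x K σ a τ j i) := by
    intro j i z z'
    unfold Xr
    rw [dep_cx K z z', dep_cx K z z', dep_cx K z z', dep_cx K z z']
  have t1 : ∀ (j : J) (i : s), ∑ l, cG l * ex (g1 ι) (Zxm μ 1 S x)
      (fun z => (if md i l ∈ K then cG l * Xr μ S x K σ a τ j i z else 0) *
        avm μ 1 S (fun w => τ j w * I w * σ i w) z) =
      if i ∈ A then vr * ex (g1 ι) (Zxm μ 1 S x) (fun z => Xr μ S x K σ a τ j i z *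
        cx (g1 ι) K (Zxm μ 1 S x) (avm μ 1 S (fun w => τ j w * I w * σ i w)) z) else 0 := by
    intro j i
    by_cases hi : i ∈ A
    · rw [if_pos hi, ex_cx hw (dX j i) (bX j i) (bP j i), hvr, Finset.sum_mul,
        ← Finset.sum_subset (Finset.subset_univ Lr)]
      · refine Finset.sum_congr rfl fun l hl => ?_
        have he : md i l ∈ K := (hK i l).2 ⟨hi, hl⟩
        simp only [if_pos he]
        have h1 : (fun z => cG l * Xr μ S x K σ a τ j i z *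
            avm μ 1 S (fun w => τ j w * I w * σ i w) z) = fun z => cG l *
            (Xr μ S x K σ a τ j i z * avm μ 1 S (fun w => τ j w * I w * σ i w) z) := by
          funext z; ring
        rw [h1, hw.ex_const_mul]
        ring
      · intro l _ hl
        have he : md i l ∉ K := fun h => hl ((hK i l).1 h).2
        simp only [if_neg he, zero_mul]
        rw [hw.ex_zero, mul_zero]
    · rw [if_neg hi]
      refine Finset.sum_eq_zero fun l _ => ?_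
      have he : md i l ∉ K := fun h => hi ((hK i l).1 h).1
      simp only [if_neg he, zero_mul]
      rw [hw.ex_zero, mul_zero]
  have t2 : ∑ j : T0, ∑ i, ∑ l, cG l * ex (g1 ι) (Zxm μ 1 S x)
        (fun z => Q1 j i l z * avm μ 1 S (fun w => τ j w * I w * σ i w) z) =
      vr * ∑ j ∈ T0, ∑ i ∈ A, ex (g1 ι) (Zxm μ 1 S x) (fun z => Xr μ S x K σ a τ j i z *
        cx (g1 ι) K (Zxm μ 1 S x) (avm μ 1 S (fun w => τ j w * I w * σ i w)) z) := by
    rw [← Finset.sum_coe_sort T0, Finset.mul_sum]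
    refine Finset.sum_congr rfl fun j _ => ?_
    simp only [hQ1def]
    rw [Finset.sum_congr rfl fun i _ => t1 j i, Finset.sum_ite_mem, Finset.univ_inter,
      Finset.mul_sum]
  rw [t2, abs_mul, abs_of_nonneg hvr0]
  -- Cauchy–Schwarz
  have t3 : |∑ j ∈ T0, ∑ i ∈ A, ex (g1 ι) (Zxm μ 1 S x) (fun z => Xr μ S x K σ a τ j i z *
        cx (g1 ι) K (Zxm μ 1 S x) (avm μ 1 S (fun w => τ j w * I w * σ i w)) z)| ≤
      √(∑ j ∈ T0, ∑ i ∈ A, ex (g1 ι) (Zxm μ 1 S x) (fun z => Xr μ S x K σ a τ j i z ^ 2)) *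
           √(∑ j ∈ T0, ∑ i ∈ A, ex (g1 ι) (Zxm μ 1 S x) (fun z =>
            cx (g1 ι) K (Zxm μ 1 S x) (avm μ 1 S (fun w => τ j w * I w * σ i w)) z ^ 2)) := by
    have h1 := hw.abs_ip_le (J := T0 × A) (X := fun p => Xr μ S x K σ a τ p.1 p.2)
      (Y := fun p => cx (g1 ι) K (Zxm μ 1 S x)
        (avm μ 1 S (fun w => τ p.1 w * I w * σ p.2 w))) (fun p => bX p.1 p.2)
      (fun p => hw.bm_cx K (bP p.1 p.2))
    unfold ip at h1
    simp only [← sq] at h1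
    rw [Fintype.sum_prod_type, Fintype.sum_prod_type, Fintype.sum_prod_type] at h1
    have h2 : ∀ f : J → s → ℝ, ∑ j : T0, ∑ i : A, f j i = ∑ j ∈ T0, ∑ i ∈ A, f j i := by
      intro f
      rw [← Finset.sum_coe_sort T0]
      exact Finset.sum_congr rfl fun j _ => Finset.sum_coe_sort A (fun i => f j i)
    rw [h2 (fun j i => ex (g1 ι) (Zxm μ 1 S x) (fun z => Xr μ S x K σ a τ j i z *
        cx (g1 ι) K (Zxm μ 1 S x) (avm μ 1 S (fun w => τ j w * I w * σ i w)) z)),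
      h2 (fun j i => ex (g1 ι) (Zxm μ 1 S x) (fun z => Xr μ S x K σ a τ j i z ^ 2)),
      h2 (fun j i => ex (g1 ι) (Zxm μ 1 S x) (fun z =>
            cx (g1 ι) K (Zxm μ 1 S x) (avm μ 1 S (fun w => τ j w * I w * σ i w)) z ^ 2))] at h1
    exact h1
  have hD : 0 < (1 - x) * (vG cG * Fintype.card s) := by positivity
  calc 1 / ((1 - x) * (vG cG * Fintype.card s)) * (vr * _)
      = vr / ((1 - x) * (vG cG * Fintype.card s)) * |∑ j ∈ T0, ∑ i ∈ A, ex (g1 ι)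
        (Zxm μ 1 S x) (fun z => Xr μ S x K σ a τ j i z * cx (g1 ι) K (Zxm μ 1 S x)
          (avm μ 1 S (fun w => τ j w * I w * σ i w)) z)| := by ring
    _ ≤ _ := mul_le_mul_of_nonneg_left t3 (div_nonneg hvr0 hD.le)

end

end Vale.Agent.P146.H420B
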