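import Vale.Agent.P146.H420B.Ggr

/-!
# GGR: bound of the defect `Va` tested with a vector of revealed coordinates

`ggr_ex`: the identity of `Ggr` in `ex`;
`ggr_ip`: `|∑ j ex (Q j * cx K (Va j))|` for `Q j` depending on `K` only, with partial derivatives
`Q1 j i l` in the modulated coordinates;
`ggr_M`: the same for `Q j = cx K ⟨a τ j⟩`, `j ∈ T0`, when the revealed modulated coordinates are
`md i l`, `i ∈ A`, `l ∈ Lr`.
-/

open MeasureTheory ProbabilityTheory Filter

namespace Vale.Agent.P146.H420B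

open Vale.Agent.P157.Lv hiding Dep
open Vale.Agent.P146.H196 Vale.Agent.P146.H646 Vale.Agent.P146.H347 Vale.Agent.P146.H325

set_option linter.unusedSectionVars false

variable {ι s L J : Type} [Fintype ι] [DecidableEq ι] [Fintype s] [DecidableEq s] [Fintype L]
  [DecidableEq L] [Fintype J] [DecidableEq J]
  {Ω : Type} [MeasurableSpace Ω] {μ : Measure Ω} {S : ι → Ω → ℝ} {M0 x : ℝ}
  {md : s → L → ι} {cG : L → ℝ} {σ : s → Ω → ℝ} {a I sg : Ω → ℝ} {lam c r0 η : ℝ}
  {τ : J → Ω → ℝ}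

/-- the part of the defect where the amplitude moves -/
noncomputable def ViG (r0 : ℝ) (μ : Measure Ω) (S : ι → Ω → ℝ) (σ : s → Ω → ℝ) (a I : Ω → ℝ)
    (T : Ω → ℝ) (z : ι → ℝ) : ℝ :=
  r0 * avm μ 1 S (fun w => T w * I w * a w) z - (Fintype.card s : ℝ)⁻¹ *
    ∑ i, avm μ 1 S (fun w => T w * I w * σ i w) z * avm μ 1 S (fun w => a w * σ i w) z

section basic

variable (hG : GM μ S M0) (ba : Bm a) (bs : ∀ i, Bm (σ i))
include hG ba bs

lemma bm_ViG {I : Ω → ℝ} (bI : Bm I) {T : Ω → ℝ} (bT : Bm T) : BM (ViG r0 μ S σ a I T) :=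
  ((BM.const _).mul (H347.bm hG 1 ((bT.mul bI).mul ba))).sub
    ((BM.const _).mul (BM.sum _ fun i _ =>
      (H347.bm hG 1 ((bT.mul bI).mul (bs i))).mul (H347.bm hG 1 (ba.mul (bs i)))))

/-- splitting of the defect -/
lemma Va_split {I : Ω → ℝ} (bI : Bm I) (bt : ∀ j, Bm (τ j)) (j : J) (z : ι → ℝ) :
    Va μ 1 r0 S σ a τ j z = ViG r0 μ S σ a I (τ j) z +
      ViG r0 μ S σ a (fun w => 1 - I w) (τ j) z := by
  have bI1 : Bm fun w => 1 - I w := (Bm.const 1).sub bI
  have e1 : avm μ 1 S (fun w => a w * τ j w) z = avm μ 1 S (fun w => τ j w * I w * a w) z +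
      avm μ 1 S (fun w => τ j w * (1 - I w) * a w) z := by
    rw [← hG.av_add 1 (((bt j).mul bI).mul ba) (((bt j).mul bI1).mul ba)]
    congr 1
    funext w
    ring
  have e2 : ∀ i, avm μ 1 S (fun w => σ i w * τ j w) z =
      avm μ 1 S (fun w => τ j w * I w * σ i w) z +
        avm μ 1 S (fun w => τ j w * (1 - I w) * σ i w) z := by
    intro i
    rw [← hG.av_add 1 (((bt j).mul bI).mul (bs i)) (((bt j).mul bI1).mul (bs i))]
    congr 1
    funext w
    ring
  unfold Va ViG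
  rw [e1]
  simp only [e2]
  have e3 : ∑ i, avm μ 1 S (fun w => a w * σ i w) z *
        (avm μ 1 S (fun w => τ j w * I w * σ i w) z +
          avm μ 1 S (fun w => τ j w * (1 - I w) * σ i w) z)
      = (∑ i, avm μ 1 S (fun w => τ j w * I w * σ i w) z * avm μ 1 S (fun w => a w * σ i w) z)
        + ∑ i, avm μ 1 S (fun w => τ j w * (1 - I w) * σ i w) z *
          avm μ 1 S (fun w => a w * σ i w) z := by
    rw [← Finset.sum_add_distrib]
    exact Finset.sum_congr rfl fun i _ => by ring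
  rw [e3]
  ring

/-- the stuck part is small -/
lemma ViG_sq_le {I : Ω → ℝ} (bI : Bm I) (I0 : ∀ w, 0 ≤ I w) (I1 : ∀ w, I w ≤ 1) (hη : 0 ≤ η)
    (ha : ∀ w, |a w| ≤ 1 + η) (hs : ∀ i w, |σ i w| ≤ 1) {T : Ω → ℝ} (bT : Bm T)
    (hT : ∀ w, |T w| ≤ 1) (z : ι → ℝ) :
    ViG r0 μ S σ a (fun w => 1 - I w) T z ^ 2
      ≤ ((|r0| + 1) * (1 + η)) ^ 2 * avm μ 1 S (fun w => 1 - I w) z := by
  have b1 : Bm fun w => 1 - I w := (Bm.const 1).sub bI
  set q := avm μ 1 S (fun w => 1 - I w) z with hq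
  have hi0 : ∀ w, 0 ≤ 1 - I w := fun w => by linarith [I1 w]
  have hi1 : ∀ w, 1 - I w ≤ 1 := fun w => by linarith [I0 w]
  have hq0 : 0 ≤ q := hG.av_nonneg 1 hi0 z
  have hq1 : q ≤ 1 := by
    have := hG.av_mono 1 b1 (Bm.const 1) hi1 z
    rwa [hG.av_one] at this
  -- an average with the stuck indicator
  have hst : ∀ {f : Ω → ℝ} {C : ℝ}, Bm f → 0 ≤ C → (∀ w, |f w| ≤ C) →
      |avm μ 1 S (fun w => T w * (1 - I w) * f w) z| ≤ C * q := by
    intro f C hf hCp hC
    have b2 : Bm fun w => T w * (1 - I w) * f w := (bT.mul b1).mul hf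
    have b3 : Bm fun w => C * (1 - I w) := b1.const_mul C
    have hpt : ∀ w, |T w * (1 - I w) * f w| ≤ C * (1 - I w) := by
      intro w
      rw [abs_mul, abs_mul, abs_of_nonneg (hi0 w)]
      calc |T w| * (1 - I w) * |f w| ≤ 1 * (1 - I w) * C :=
            mul_le_mul (mul_le_mul_of_nonneg_right (hT _) (hi0 w)) (hC w) (abs_nonneg _)
              (by linarith [hi0 w])
        _ = _ := by ring
    rw [hq, ← H196.av_mul μ 1 S C]
    rw [abs_le]
    constructor
    · have h2 := hG.av_mono 1 (b3.const_mul (-1)) b2 (fun w => by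
        have := (abs_le.1 (hpt w)).1; simpa using this) z
      rw [H196.av_mul μ 1 S (-1)] at h2
      linarith
    · exact hG.av_mono 1 b2 b3 (fun w => (abs_le.1 (hpt w)).2) z
  have h1 : |ViG r0 μ S σ a (fun w => 1 - I w) T z| ≤ (|r0| + 1) * (1 + η) * q := by
    unfold ViG
    have h2 := hst ba (by linarith) ha
    have h3 : ∀ i : s, |avm μ 1 S (fun w => T w * (1 - I w) * σ i w) z *
        avm μ 1 S (fun w => a w * σ i w) z| ≤ q * (1 + η) := by
      intro i
      rw [abs_mul]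
      have h4 := hst (bs i) zero_le_one (fun w => hs i w)
      rw [one_mul] at h4
      refine mul_le_mul h4 ?_ (abs_nonneg _) hq0
      refine hG.abs_av_le (h := fun w => a w * σ i w) 1 (ba.mul (bs i)).1 (fun w => ?_) z
      rw [abs_mul]
      calc |a w| * |σ i w| ≤ (1 + η) * 1 :=
            mul_le_mul (ha w) (hs i w) (abs_nonneg _) (by linarith)
        _ = _ := mul_one _
    have h5 : |(Fintype.card s : ℝ)⁻¹ * ∑ i : s,
        avm μ 1 S (fun w => T w * (1 - I w) * σ i w) z *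
        avm μ 1 S (fun w => a w * σ i w) z| ≤ q * (1 + η) := by
      rw [abs_mul, abs_of_nonneg (by positivity : (0 : ℝ) ≤ (Fintype.card s : ℝ)⁻¹)]
      rcases Nat.eq_zero_or_pos (Fintype.card s) with h0 | h0
      · rw [h0]; simp only [Nat.cast_zero, inv_zero, zero_mul]
        exact mul_nonneg hq0 (by linarith)
      · have hn : (0 : ℝ) < Fintype.card s := by exact_mod_cast h0
        rw [inv_mul_le_iff₀ hn]
        refine (Finset.abs_sum_le_sum_abs _ _).trans ((Finset.sum_le_sum fun i _ => h3 i).trans ?_)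
        rw [Finset.sum_const, Finset.card_univ, nsmul_eq_mul]
    calc _ ≤ |r0 * avm μ 1 S (fun w => T w * (1 - I w) * a w) z| + _ := abs_sub _ _
      _ ≤ |r0| * ((1 + η) * q) + q * (1 + η) := by
          refine add_le_add ?_ h5
          rw [abs_mul]
          exact mul_le_mul_of_nonneg_left h2 (abs_nonneg _)
      _ = _ := by ring
  have h6 : 0 ≤ (|r0| + 1) * (1 + η) := by positivity
  calc ViG r0 μ S σ a (fun w => 1 - I w) T z ^ 2
      = |ViG r0 μ S σ a (fun w => 1 - I w) T z| ^ 2 := (sq_abs _).symm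
    _ ≤ ((|r0| + 1) * (1 + η) * q) ^ 2 := pow_le_pow_left₀ (abs_nonneg _) h1 2
    _ = ((|r0| + 1) * (1 + η)) ^ 2 * (q * q) := by ring
    _ ≤ ((|r0| + 1) * (1 + η)) ^ 2 * q := by
        refine mul_le_mul_of_nonneg_left ?_ (sq_nonneg _)
        nlinarith

end basic

section main

variable [Nonempty s] (hG : GM μ S M0) (hM : MS S md cG σ a I sg) (hv : 0 < vG cG) (hx : x < 1)
include hG hM hv hx

/-- the exact identity in `ex` -/
theorem ggr_ex {T : Ω → ℝ} (bT : Bm T) (hT : AIbp μ S md cG σ a I sg lam c T)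
    (hc : c = vG cG * Fintype.card s * (1 - (1 - x) * r0))
    {φ : (ι → ℝ) → ℝ} (hφ : BM φ) {φ1 : s → L → (ι → ℝ) → ℝ}
    (hd : ∀ i l, PD (md i l) φ (φ1 i l)) (hφ1 : ∀ i l, BM (φ1 i l)) :
    ex (g1 ι) (Zxm μ 1 S x) (fun z => φ z * ViG r0 μ S σ a I T z)
      = lam / ((1 - x) * (vG cG * Fintype.card s)) * ex (g1 ι) (Zxm μ 1 S x)
          (fun z => φ z * avm μ 1 S (fun w => T w * sg w) z)
        - 1 / ((1 - x) * (vG cG * Fintype.card s)) * ∑ i, ∑ l, cG l * ex (g1 ι) (Zxm μ 1 S x)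
          (fun z => φ1 i l z * avm μ 1 S (fun w => T w * I w * σ i w) z) := by
  have key := ggr_exact hG hM x bT hT hφ.eg hd fun i l => (hφ1 i l).eg
  have hn : (0 : ℝ) < Fintype.card s := by exact_mod_cast Fintype.card_pos
  set D := (1 - x) * (vG cG * Fintype.card s) with hDdef
  have hD : 0 < D := by
    have : 0 < 1 - x := by linarith
    positivity
  have hw := H347.wt hG 1 x
  have hW : (0 : ℝ) < ∫ z, Zxm μ 1 S x z ∂(Measure.pi (g1 ι)) := hw.tot_pos
  set W := ∫ z, Zxm μ 1 S x z ∂(Measure.pi (g1 ι)) with hWdef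
  have e1 : ∀ f : (ι → ℝ) → ℝ, ex (g1 ι) (Zxm μ 1 S x) f =
      (∫ z, Zxm μ 1 S x z * f z ∂(Measure.pi (g1 ι))) / W := fun f => rfl
  have e2 : ∫ u, φ u * (Zxm μ 1 S x u * ((vG cG * Fintype.card s - c) *
          avm μ 1 S (fun w => T w * I w * a w) u -
        (1 - x) * vG cG * ∑ i, avm μ 1 S (fun w => T w * I w * σ i w) u *
          avm μ 1 S (fun w => a w * σ i w) u)) ∂(gI ι) =
      D * ∫ z, Zxm μ 1 S x z * (φ z * ViG r0 μ S σ a I T z) ∂(Measure.pi (g1 ι)) := by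
    rw [← integral_const_mul]
    refine integral_congr_ae (Eventually.of_forall fun z => ?_)
    simp only
    unfold ViG
    rw [hc, hDdef]
    field_simp
    ring
  have e3 : ∫ u, φ u * (Zxm μ 1 S x u * avm μ 1 S (fun w => T w * sg w) u) ∂(gI ι) =
      ∫ z, Zxm μ 1 S x z * (φ z * avm μ 1 S (fun w => T w * sg w) z) ∂(Measure.pi (g1 ι)) :=
    integral_congr_ae (Eventually.of_forall fun z => by simp only; ring)
  have e4 : ∀ i l, ∫ u, φ1 i l u * (Zxm μ 1 S x u *
        avm μ 1 S (fun w => T w * I w * σ i w) u) ∂(gI ι) =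
      ∫ z, Zxm μ 1 S x z * (φ1 i l z * avm μ 1 S (fun w => T w * I w * σ i w) z)
        ∂(Measure.pi (g1 ι)) := fun i l =>
    integral_congr_ae (Eventually.of_forall fun z => by simp only; ring)
  rw [e2, e3] at key
  simp only [e4] at key
  simp only [e1]
  have e5 : ∑ i, ∑ l, cG l * ((∫ z, Zxm μ 1 S x z * (φ1 i l z *
        avm μ 1 S (fun w => T w * I w * σ i w) z) ∂(Measure.pi (g1 ι))) / W) =
      (∑ i, ∑ l, cG l * ∫ z, Zxm μ 1 S x z * (φ1 i l z *
        avm μ 1 S (fun w => T w * I w * σ i w) z) ∂(Measure.pi (g1 ι))) / W := by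
    rw [Finset.sum_div]
    refine Finset.sum_congr rfl fun i _ => ?_
    rw [Finset.sum_div]
    exact Finset.sum_congr rfl fun l _ => by ring
  rw [e5]
  have fin : ∀ P1 P2 P3 : ℝ, D * P1 + P3 = lam * P2 →
      P1 / W = lam / D * (P2 / W) - 1 / D * (P3 / W) := by
    intro P1 P2 P3 h
    have h1 : P1 = (lam * P2 - P3) / D := by
      rw [eq_div_iff hD.ne']
      linarith
    rw [h1]
    field_simp
  exact fin _ _ _ key

/-- **the defect tested with revealed vectors** -/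
theorem ggr_ip (hlam : 0 ≤ lam) (hη : 0 ≤ η) (ha : ∀ w, |a w| ≤ 1 + η) (bt : ∀ j, Bm (τ j))
    (ht : ∀ j w, |τ j w| ≤ 1) (hT : ∀ j, AIbp μ S md cG σ a I sg lam c (τ j))
    (hc : c = vG cG * Fintype.card s * (1 - (1 - x) * r0)) {K : Finset ι}
    {Q : J → (ι → ℝ) → ℝ} (hQ : ∀ j, BM (Q j)) (dQ : ∀ j, H646.Dep K (Q j))
    {Q1 : J → s → L → (ι → ℝ) → ℝ} (hd : ∀ j i l, PD (md i l) (Q j) (Q1 j i l))
    (hQ1 : ∀ j i l, BM (Q1 j i l)) :
    |∑ j, ex (g1 ι) (Zxm μ 1 S x) (fun z => Q j z *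
        cx (g1 ι) K (Zxm μ 1 S x) (Va μ 1 r0 S σ a τ j) z)|
      ≤ (lam / ((1 - x) * (vG cG * Fintype.card s)) * √(√(∑ j, ∑ l, ex (g1 ι) (Zxm μ 1 S x)
            (fun z => cx (g1 ι) K (Zxm μ 1 S x) (avm μ 1 S (fun w => τ j w * τ l w)) z ^ 2)))
          + √(Fintype.card J * ((|r0| + 1) * (1 + η)) ^ 2 *
            ex (g1 ι) (Zxm μ 1 S x) (avm μ 1 S (fun w => 1 - I w)))) *
          √(∑ j, ex (g1 ι) (Zxm μ 1 S x) (fun z => Q j z ^ 2))
        + 1 / ((1 - x) * (vG cG * Fintype.card s)) * |∑ j, ∑ i, ∑ l, cG l *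
          ex (g1 ι) (Zxm μ 1 S x)
            (fun z => Q1 j i l z * avm μ 1 S (fun w => τ j w * I w * σ i w) z)| := by
  have hn : (0 : ℝ) < Fintype.card s := by exact_mod_cast Fintype.card_pos
  set θ := lam / ((1 - x) * (vG cG * Fintype.card s)) with hθ
  set D' := 1 / ((1 - x) * (vG cG * Fintype.card s)) with hD'
  have hx1 : 0 < 1 - x := by linarith
  have hθ0 : 0 ≤ θ := by positivity
  have hD0 : 0 ≤ D' := by positivity
  have hw := H347.wt hG 1 x
  set w := Zxm μ 1 S x with hwd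
  have hs1 : ∀ i p, |σ i p| ≤ 1 := fun i p => by
    have := hM.s2 i p
    rw [← sq_abs] at this
    nlinarith [abs_nonneg (σ i p)]
  have bI1 : Bm fun w => 1 - I w := (Bm.const 1).sub hM.bI
  have bA : ∀ j, BM (avm μ 1 S (fun w => τ j w * sg w)) := fun j =>
    H347.bm hG 1 ((bt j).mul hM.bg)
  have bV : ∀ j, BM (ViG r0 μ S σ a I (τ j)) := fun j => bm_ViG hG hM.ba hM.bs hM.bI (bt j)
  have bR : ∀ j, BM (ViG r0 μ S σ a (fun w => 1 - I w) (τ j)) := fun j =>
    bm_ViG hG hM.ba hM.bs bI1 (bt j)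
  have bTS : ∀ j i, BM (avm μ 1 S (fun w => τ j w * I w * σ i w)) := fun j i =>
    H347.bm hG 1 (((bt j).mul hM.bI).mul (hM.bs i))
  -- remove the conditional mean, split, and use the identity
  have e1 : ∀ j, ex (g1 ι) w (fun z => Q j z * cx (g1 ι) K w (Va μ 1 r0 S σ a τ j) z) =
      (θ * ex (g1 ι) w (fun z => Q j z * cx (g1 ι) K w (avm μ 1 S (fun w => τ j w * sg w)) z) -
        D' * ∑ i, ∑ l, cG l * ex (g1 ι) w
            (fun z => Q1 j i l z * avm μ 1 S (fun w => τ j w * I w * σ i w) z)) +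
      ex (g1 ι) w (fun z => Q j z * ViG r0 μ S σ a (fun w => 1 - I w) (τ j) z) := by
    intro j
    have h0 : Va μ 1 r0 S σ a τ j = fun z => ViG r0 μ S σ a I (τ j) z +
        ViG r0 μ S σ a (fun w => 1 - I w) (τ j) z := by
      funext z
      exact Va_split hG hM.ba hM.bs hM.bI bt j z
    rw [ex_cx hw (dQ j) (hQ j) (by rw [h0]; exact (bV j).add (bR j)),
      ex_cx hw (dQ j) (hQ j) (bA j), h0]
    have h1 : (fun z => Q j z * (ViG r0 μ S σ a I (τ j) z +
        ViG r0 μ S σ a (fun w => 1 - I w) (τ j) z)) =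
        fun z => Q j z * ViG r0 μ S σ a I (τ j) z +
          Q j z * ViG r0 μ S σ a (fun w => 1 - I w) (τ j) z := by
      funext z; ring
    rw [h1, hw.ex_add ((hQ j).mul (bV j)) ((hQ j).mul (bR j)),
      ggr_ex hG hM hv hx (bt j) (hT j) hc (hQ j) (hd j) (hQ1 j)]
  have e2 : ∑ j, ex (g1 ι) w (fun z => Q j z * cx (g1 ι) K w (Va μ 1 r0 S σ a τ j) z) =
      θ * ip (g1 ι) w Q (fun j => cx (g1 ι) K w (avm μ 1 S (fun w => τ j w * sg w))) -
      D' * (∑ j, ∑ i, ∑ l, cG l * ex (g1 ι) w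
            (fun z => Q1 j i l z * avm μ 1 S (fun w => τ j w * I w * σ i w) z)) +
      ip (g1 ι) w Q (fun j => ViG r0 μ S σ a (fun w => 1 - I w) (τ j)) := by
    unfold ip
    rw [Finset.sum_congr rfl fun j _ => e1 j, Finset.sum_add_distrib, Finset.sum_sub_distrib,
      Finset.mul_sum, Finset.mul_sum]
  rw [e2]
  -- the three bounds
  have c1 := hw.abs_ip_le hQ (fun j => hw.bm_cx K (bA j))
  have c2 := hw.abs_ip_le hQ bR
  have q1 : ip (g1 ι) w Q Q = ∑ j, ex (g1 ι) w (fun z => Q j z ^ 2) := by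
    unfold ip
    simp only [← sq]
  have n1 : ip (g1 ι) w (fun j => cx (g1 ι) K w (avm μ 1 S (fun w => τ j w * sg w)))
        (fun j => cx (g1 ι) K w (avm μ 1 S (fun w => τ j w * sg w))) ≤
      √(∑ j, ∑ l, ex (g1 ι) w
        (fun z => cx (g1 ι) K w (avm μ 1 S (fun w => τ j w * τ l w)) z ^ 2)) := by
    have h4 := ex_norm hw bA (fun j l => H347.bm hG 1 ((bt j).mul (bt l))) (C := 1)
      (fun u z => ?_) K
    · rw [one_pow, one_mul] at h4
      unfold ip
      simpa only [← sq] using h4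
    · rw [one_pow, one_mul]
      have bL : Bm fun p : Ω => (∑ j, u j * τ j p) := Bm.sum _ fun j _ => (bt j).const_mul _
      have e6 : ∑ j, u j * avm μ 1 S (fun p => τ j p * sg p) z
          = avm μ 1 S (fun p => (∑ j, u j * τ j p) * sg p) z := by
        have e7 : (fun p : Ω => (∑ j, u j * τ j p) * sg p)
            = fun p => ∑ j, u j * (τ j p * sg p) := by
          funext p
          rw [Finset.sum_mul]
          exact Finset.sum_congr rfl fun j _ => by ring
        rw [e7, hG.av_sum 1 Finset.univ fun j _ => Bm.const_mul _ ((bt j).mul hM.bg)]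
        exact Finset.sum_congr rfl fun j _ => (H196.av_mul _ _ _ _ _ _).symm
      have e8 : ∑ j, ∑ l, u j * u l * avm μ 1 S (fun p => τ j p * τ l p) z
          = avm μ 1 S (fun p => (∑ j, u j * τ j p) ^ 2) z := by
        have e9 : (fun p : Ω => (∑ j, u j * τ j p) ^ 2)
            = fun p => ∑ j, ∑ l, u j * u l * (τ j p * τ l p) := by
          funext p
          rw [sq, Finset.sum_mul_sum]
          exact Finset.sum_congr rfl fun j _ => Finset.sum_congr rfl fun l _ => by ring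
        have b5 : ∀ j l, Bm fun p : Ω => u j * u l * (τ j p * τ l p) := fun j l =>
          Bm.const_mul _ ((bt j).mul (bt l))
        rw [e9, hG.av_sum 1 Finset.univ fun j _ => Bm.sum _ fun l _ => b5 j l]
        refine Finset.sum_congr rfl fun j _ => ?_
        rw [hG.av_sum 1 Finset.univ fun l _ => b5 j l]
        exact Finset.sum_congr rfl fun l _ => (H196.av_mul _ _ _ _ _ _).symm
      rw [e6, e8]
      refine (hG.av_sq_le 1 (bL.mul hM.bg) z).trans (le_of_eq ?_)
      congr 1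
      funext p
      rw [mul_pow, hM.g2, mul_one]
  have n2 : ip (g1 ι) w (fun j => ViG r0 μ S σ a (fun w => 1 - I w) (τ j))
        (fun j => ViG r0 μ S σ a (fun w => 1 - I w) (τ j)) ≤
      Fintype.card J * ((|r0| + 1) * (1 + η)) ^ 2 *
            ex (g1 ι) w (avm μ 1 S (fun w => 1 - I w)) := by
    unfold ip
    have h5 : ∀ j, ex (g1 ι) w (fun z => ViG r0 μ S σ a (fun w => 1 - I w) (τ j) z *
        ViG r0 μ S σ a (fun w => 1 - I w) (τ j) z) ≤ ((|r0| + 1) * (1 + η)) ^ 2 *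
            ex (g1 ι) w (avm μ 1 S (fun w => 1 - I w)) := by
      intro j
      rw [← hw.ex_const_mul]
      refine hw.ex_mono ((bR j).mul (bR j)) ((BM.const _).mul (H347.bm hG 1 bI1)) fun z => ?_
      have := ViG_sq_le (r0 := r0) hG hM.ba hM.bs hM.bI hM.I0 hM.I1 hη ha hs1 (bt j) (ht j) z
      rw [sq] at this
      exact this
    refine (Finset.sum_le_sum fun j _ => h5 j).trans (le_of_eq ?_)
    rw [Finset.sum_const, Finset.card_univ, nsmul_eq_mul]
    ring
  rw [q1] at c1 c2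
  set q := √(∑ j, ex (g1 ι) w (fun z => Q j z ^ 2)) with hq
  have hq0 : 0 ≤ q := Real.sqrt_nonneg _
  have c1' := c1.trans (mul_le_mul_of_nonneg_left (Real.sqrt_le_sqrt n1) hq0)
  have c2' := c2.trans (mul_le_mul_of_nonneg_left (Real.sqrt_le_sqrt n2) hq0)
  refine (abs_add_le _ _).trans ?_
  refine (add_le_add (abs_sub _ _) le_rfl).trans ?_
  rw [abs_mul, abs_mul, abs_of_nonneg hθ0, abs_of_nonneg hD0]
  have c3 := mul_le_mul_of_nonneg_left c1' hθ0
  linarith

end main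

end Vale.Agent.P146.H420B
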