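import Vale.Agent.P146.H281.U2
import Vale.Agent.P146.H646.W0U
import Vale.Agent.P146.H420B.GgrC

/-!
# GGR in the ensemble `U`

`msU`, `aibp_U`: the modulated levels `Lm` of the thermal variable `g0` as a system of `Ggr`;
`ggr_U`: the defect `Va` tested with `M j = cx K ⟨al s_j⟩`, `K = Kset S BL FL` (the levels of
`Lm ∩ FL` are revealed);
`i2_U`: the row identity of a hidden site tested with `M` (input (I2) at the test function one).
-/

open MeasureTheory ProbabilityTheory Filter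

namespace Vale.Agent.P146.H420B

open Vale.Agent.P157.Lv hiding Dep
open Vale.Agent.P146.H196 Vale.Agent.P146.H646 Vale.Agent.P146.H475 Vale.Agent.P146.H347
  Vale.Agent.P146.H325 Vale.Agent.P146.H281.U

set_option linter.unusedSectionVars false

variable {G : Type} [Fintype G] [DecidableEq G] {n : ℕ} {LB LF : Type} [Fintype LB]
  [DecidableEq LB] [Fintype LF] [DecidableEq LF] {b : ℝ} {cB : LB → ℝ} {cF : LF → ℝ}
  {a : LF → (G → ℝ) → ℝ} {lam c : G → ℝ} {η x r0 : ℝ} {g0 : G} {Lm : Finset LF}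

/-- the amplitude of the variable `g0` -/
noncomputable def rG (η : ℝ) (g0 : G) (θ : G → ℝ) : ℝ := al η (θ g0)

/-- the modulated coordinates of the ensemble `U` -/
theorem msU (hη : 0 ≤ η) (hM : Mods a η g0 Lm) :
    MS (SU b cB cF a : Co n LB LF → (G → ℝ) × Xs n → ℝ) (fun i (l : Lm) => fd LB i (l : LF))
      (fun l => cF l) (fun i w => sp w.2 i) (fun w => rG η g0 w.1) (fun w => ins η (w.1 g0))
      (fun w => sg (w.1 g0)) where
  en i l w := by
    rw [SU_fd, hM.on l l.2]
    unfold rG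
    ring
  bs i := bm_spU fun σ => sp σ i
  s2 i w := by rw [sq, sp_mul_self]
  ba := bm_alU hη g0
  bI := bm_insU η g0
  I0 w := ins_nonneg _ _
  I1 w := ins_le _ _
  bg := bm_sgU g0
  g2 w := by rw [← sq_abs, abs_sg, one_pow]

/-- the integration by parts in the thermal variable `g0` -/
theorem aibp_U (h : ∀ g, 0 < lam g) (hA : AmU a η) (hM : Mods a η g0 Lm)
    {T : (G → ℝ) × Xs n → ℝ} (hT : Bm T)
    (hTi : ∀ θ σ r, T (Function.update θ g0 r, σ) = T (θ, σ)) :
    AIbp (muU (nuG lam η c) n) (SU b cB cF a : Co n LB LF → (G → ℝ) × Xs n → ℝ)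
      (fun i (l : Lm) => fd LB i (l : LF)) (fun l => cF l) (fun i w => sp w.2 i)
      (fun w => rG η g0 w.1) (fun w => ins η (w.1 g0)) (fun w => sg (w.1 g0)) (lam g0) (c g0) T := by
  intro u
  have h1 := av_ibpU (b := b) (cB := cB) (cF := cF) (c := c) (n := n) h hA hM hT hTi u
  rw [← Finset.sum_coe_sort Lm, Finset.sum_comm] at h1
  have h2 : ∀ (i : Fin n) (l : Lm), u (fd LB i (l : LF)) * (cF l * avm (muU (nuG lam η c) n) 1
      (SU b cB cF a) (fun w => T w * ins η (w.1 g0) * sp w.2 i) u) = cF l * (u (fd LB i (l : LF)) *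
      avm (muU (nuG lam η c) n) 1 (SU b cB cF a) (fun w => T w * ins η (w.1 g0) * sp w.2 i) u) :=
    fun i l => by ring
  simp only [h2]
  exact h1

lemma vG_U : vG (fun l : Lm => cF l) = ∑ l ∈ Lm, cF l ^ 2 :=
  Finset.sum_coe_sort Lm fun l => cF l ^ 2

/-- the revealed modulated levels -/
lemma rev_U_le (FL : Finset LF) :
    ∑ l ∈ Finset.univ.filter (fun l : Lm => (l : LF) ∈ FL), cF l ^ 2 ≤ ∑ l ∈ Lm, cF l ^ 2 := by
  rw [← Finset.sum_coe_sort Lm fun l => cF l ^ 2]
  exact Finset.sum_le_sum_of_subset_of_nonneg (Finset.filter_subset _ _)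
    fun i _ _ => sq_nonneg (cF i)

/-- **GGR in the ensemble `U`** -/
theorem ggr_U (h : ∀ g, 0 < lam g) (hA : AmU a η) (hM : Mods a η g0 Lm)
    (hs2 : 0 < ∑ l ∈ Lm, cF l ^ 2) (hn : 0 < n) (hx : x < 1)
    (hc : c g0 = (∑ l ∈ Lm, cF l ^ 2) * n * (1 - (1 - x) * r0)) (BL : Finset LB)
    (FL : Finset LF) (S : Finset (Fin n)) :
    (1 - x) * |∑ j ∈ S, exU n (nuG lam η c) b cB cF a x (fun z =>
          cxU n (nuG lam η c) b cB cF a x (Kset S BL FL)
            (avU n (nuG lam η c) b cB cF a (fun w => rG η g0 w.1 * sp w.2 j)) z *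
          Va (muU (nuG lam η c) n) 1 r0 (SU b cB cF a) (fun (i : Fin n) w => sp w.2 i)
            (fun w => rG η g0 w.1) (fun (j : Fin n) w => sp w.2 j) j z)|
      ≤ (lam g0 / ((∑ l ∈ Lm, cF l ^ 2) * n) *
            √(√(∑ j ∈ S, ∑ l ∈ S, exU n (nuG lam η c) b cB cF a x
            (fun z => cxU n (nuG lam η c) b cB cF a x (Kset S BL FL)
              (avU n (nuG lam η c) b cB cF a (fun w => sp w.2 j * sp w.2 l)) z ^ 2)))
          + (1 - x) * √(S.card * ((|r0| + 1) * (1 + η)) ^ 2 *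
            exU n (nuG lam η c) b cB cF a x
              (avU n (nuG lam η c) b cB cF a (fun w => 1 - ins η (w.1 g0))))) *
          √(∑ j ∈ S, exU n (nuG lam η c) b cB cF a x (fun z =>
            cxU n (nuG lam η c) b cB cF a x (Kset S BL FL)
            (avU n (nuG lam η c) b cB cF a (fun w => rG η g0 w.1 * sp w.2 j)) z ^ 2))
        + 1 / n *
          (√(∑ j ∈ S, ∑ i ∈ S, exU n (nuG lam η c) b cB cF a x (fun z =>
            Xr (muU (nuG lam η c) n) (SU b cB cF a) x (Kset S BL FL) (fun (i : Fin n) w => sp w.2 i)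
              (fun w => rG η g0 w.1) (fun (j : Fin n) w => sp w.2 j) j i z ^ 2)) *
           √(∑ j ∈ S, ∑ i ∈ S, exU n (nuG lam η c) b cB cF a x (fun z =>
            cxU n (nuG lam η c) b cB cF a x (Kset S BL FL)
            (avU n (nuG lam η c) b cB cF a (fun w => sp w.2 j * ins η (w.1 g0) * sp w.2 i)) z ^ 2))) := by
  have hη := hA.nn
  have hν := finite_nuG h hη c
  have h0 := nuG_ne h hη c
  have hG := gmU (n := n) b cB cF η hν h0 hA
  have hMS := msU (n := n) (b := b) (cB := cB) (cF := cF) hη hM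
  have hw := H347.wt hG 1 x
  have : Nonempty (Fin n) := ⟨⟨0, hn⟩⟩
  have hn' : (0 : ℝ) < n := by exact_mod_cast hn
  have hx1 : 0 < 1 - x := by linarith
  have ha : ∀ w : (G → ℝ) × Xs n, |rG η g0 w.1| ≤ 1 + η := fun w => by
    have h1 := al_mem hη (w.1 g0)
    unfold rG
    rw [abs_le]; constructor <;> linarith [h1.1, h1.2]
  have hK : ∀ (i : Fin n) (l : Lm), fd LB i (l : LF) ∈ Kset S BL FL ↔
      i ∈ S ∧ l ∈ Finset.univ.filter (fun l : Lm => (l : LF) ∈ FL) := by
    intro i l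
    rw [fd_memK]
    simp
  have hc' : c g0 = vG (fun l : Lm => cF l) * Fintype.card (Fin n) * (1 - (1 - x) * r0) := by
    rw [vG_U, Fintype.card_fin, hc]
  have bt : ∀ j : Fin n, Bm fun w : (G → ℝ) × Xs n => sp w.2 j := fun j => bm_spU fun σ => sp σ j
  have key := ggr_M (J := Fin n) (τ := fun (j : Fin n) w => sp w.2 j) hG hMS
    (by rw [vG_U]; exact hs2) hx (h g0).le hη ha bt (fun j w => abs_sp w.2 j)
    (fun j => aibp_U h hA hM (bt j) fun θ σ r => rfl) hc' hK S
  rw [vG_U, Fintype.card_fin] at key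
  -- remove the conditional mean of `Va`
  have bV : ∀ j : Fin n, BM (Va (muU (nuG lam η c) n) 1 r0 (SU b cB cF a : Co n LB LF → _)
      (fun (i : Fin n) w => sp w.2 i) (fun w => rG η g0 w.1)
      (fun (j : Fin n) w => sp w.2 j) j) := by
    intro j
    have e0 : Va (muU (nuG lam η c) n) 1 r0 (SU b cB cF a : Co n LB LF → _)
      (fun (i : Fin n) w => sp w.2 i) (fun w => rG η g0 w.1)
      (fun (j : Fin n) w => sp w.2 j) j = fun z =>
        ViG r0 (muU (nuG lam η c) n) (SU b cB cF a) (fun (i : Fin n) w => sp w.2 i)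
          (fun w => rG η g0 w.1) (fun w => ins η (w.1 g0)) (fun w => sp w.2 j) z +
        ViG r0 (muU (nuG lam η c) n) (SU b cB cF a) (fun (i : Fin n) w => sp w.2 i)
          (fun w => rG η g0 w.1) (fun w => 1 - ins η (w.1 g0)) (fun w => sp w.2 j) z := by
      funext z
      exact Va_split hG hMS.ba hMS.bs hMS.bI bt j z
    rw [e0]
    exact (bm_ViG hG hMS.ba hMS.bs hMS.bI (bt j)).add
      (bm_ViG hG hMS.ba hMS.bs ((Bm.const 1).sub hMS.bI) (bt j))
  have e1 : ∀ j ∈ S, exU n (nuG lam η c) b cB cF a x (fun z =>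
          cxU n (nuG lam η c) b cB cF a x (Kset S BL FL)
            (avU n (nuG lam η c) b cB cF a (fun w => rG η g0 w.1 * sp w.2 j)) z *
          Va (muU (nuG lam η c) n) 1 r0 (SU b cB cF a) (fun (i : Fin n) w => sp w.2 i)
            (fun w => rG η g0 w.1) (fun (j : Fin n) w => sp w.2 j) j z) =
      exU n (nuG lam η c) b cB cF a x (fun z =>
          cxU n (nuG lam η c) b cB cF a x (Kset S BL FL)
            (avU n (nuG lam η c) b cB cF a (fun w => rG η g0 w.1 * sp w.2 j)) z *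
          cxU n (nuG lam η c) b cB cF a x (Kset S BL FL)
            (Va (muU (nuG lam η c) n) 1 r0 (SU b cB cF a) (fun (i : Fin n) w => sp w.2 i)
            (fun w => rG η g0 w.1) (fun (j : Fin n) w => sp w.2 j) j) z) := fun j _ =>
    (ex_cx hw (dep_cx _) (hw.bm_cx _ (H347.bm hG 1 (hMS.ba.mul (bt j)))) (bV j)).symm
  rw [Finset.sum_congr rfl e1]
  have key2 := mul_le_mul_of_nonneg_left key hx1.le
  refine key2.trans ?_
  set X := √(∑ j ∈ S, ∑ i ∈ S, ex (g1 (Co n LB LF)) (Zxm (muU (nuG lam η c) n) 1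
    (SU b cB cF a) x) (fun z =>
            Xr (muU (nuG lam η c) n) (SU b cB cF a) x (Kset S BL FL) (fun (i : Fin n) w => sp w.2 i)
              (fun w => rG η g0 w.1) (fun (j : Fin n) w => sp w.2 j) j i z ^ 2)) with hX
  set Y := √(∑ j ∈ S, ∑ i ∈ S, ex (g1 (Co n LB LF)) (Zxm (muU (nuG lam η c) n) 1
    (SU b cB cF a) x) (fun z => cx (g1 (Co n LB LF)) (Kset S BL FL)
      (Zxm (muU (nuG lam η c) n) 1 (SU b cB cF a) x)
        (avm (muU (nuG lam η c) n) 1 (SU b cB cF a)
          (fun w => sp w.2 j * ins η (w.1 g0) * sp w.2 i)) z ^ 2)) with hY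
  have hXY : 0 ≤ X * Y := mul_nonneg (Real.sqrt_nonneg _) (Real.sqrt_nonneg _)
  have hrev := rev_U_le (cF := cF) (Lm := Lm) FL
  set v := ∑ l ∈ Lm, cF l ^ 2 with hv
  set vr := ∑ l ∈ Finset.univ.filter (fun l : Lm => (l : LF) ∈ FL), cF l ^ 2 with hvr
  have h3 : (1 - x) * (vr / ((1 - x) * (v * n)) * (X * Y)) ≤ 1 / n * (X * Y) := by
    rw [← mul_assoc]
    refine mul_le_mul_of_nonneg_right ?_ hXY
    have : (1 - x) * (vr / ((1 - x) * (v * n))) = vr / v * (1 / n) := by
      field_simp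
    rw [this]
    refine mul_le_of_le_one_left (by positivity) ?_
    exact (div_le_one hs2).2 hrev
  rw [mul_add]
  refine add_le_add (le_of_eq ?_) h3
  have h4 : (1 - x) * (lam g0 / ((1 - x) * (v * n))) = lam g0 / (v * n) := by
    field_simp
  rw [← mul_assoc, mul_add, ← mul_assoc, h4]

/-- **(I2) at the test function one, with revealed modulated levels.** -/
theorem i2_U (h : ∀ g, 0 < lam g) (hA : AmU a η) (hM : Mods a η g0 Lm)
    (hs2 : 0 < ∑ l ∈ Lm, cF l ^ 2) (hx0 : 0 ≤ x) (hx : x < 1)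
    (hc : c g0 = (∑ l ∈ Lm, cF l ^ 2) * n * (1 - (1 - x) * r0)) (BL : Finset LB)
    (FL : Finset LF) {S S1 : Finset (Fin n)} (hS : S ⊆ S1) {i0 : Fin n} (hi0 : i0 ∉ S)
    (hne : (S1 \ S).Nonempty) :
    |exU n (nuG lam η c) b cB cF a x (fun z => ∑ j ∈ S,
          cxU n (nuG lam η c) b cB cF a x (Kset S BL FL)
            (avU n (nuG lam η c) b cB cF a (fun w => rG η g0 w.1 * sp w.2 j)) z *
          H615.Th (avU n (nuG lam η c) b cB cF a) x (fun w => rG η g0 w.1) (fun w => sp w.2 i0)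
            (fun j w => sp w.2 j) j z)
        - (1 - (1 - x) * r0) * exU n (nuG lam η c) b cB cF a x (H615.m2 S (fun j =>
          cxU n (nuG lam η c) b cB cF a x (Kset S BL FL)
            (avU n (nuG lam η c) b cB cF a (fun w => rG η g0 w.1 * sp w.2 j))))|
      ≤ (√(8 * (1 + η) ^ 2 * √(∑ j : Fin n, ∑ l : Fin n, exU n (nuG lam η c) b cB cF a x (fun z =>
            cxU n (nuG lam η c) b cB cF a x (Kset S1 BL FL)
              (avU n (nuG lam η c) b cB cF a (fun w => sp w.2 j * sp w.2 l)) z ^ 2))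
              / (S1 \ S).card)
          + lam g0 / ((∑ l ∈ Lm, cF l ^ 2) * n) *
            √(√(∑ j ∈ S, ∑ l ∈ S, exU n (nuG lam η c) b cB cF a x
            (fun z => cxU n (nuG lam η c) b cB cF a x (Kset S BL FL)
              (avU n (nuG lam η c) b cB cF a (fun w => sp w.2 j * sp w.2 l)) z ^ 2)))
          + √(S.card * ((|r0| + 1) * (1 + η)) ^ 2 *
            exU n (nuG lam η c) b cB cF a x
              (avU n (nuG lam η c) b cB cF a (fun w => 1 - ins η (w.1 g0))))) *
          √(exU n (nuG lam η c) b cB cF a x (H615.m2 S (fun j =>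
          cxU n (nuG lam η c) b cB cF a x (Kset S BL FL)
            (avU n (nuG lam η c) b cB cF a (fun w => rG η g0 w.1 * sp w.2 j)))))
        + 1 / n *
          (√(∑ j ∈ S, ∑ i ∈ S, exU n (nuG lam η c) b cB cF a x (fun z =>
            Xr (muU (nuG lam η c) n) (SU b cB cF a) x (Kset S BL FL) (fun (i : Fin n) w => sp w.2 i)
              (fun w => rG η g0 w.1) (fun (j : Fin n) w => sp w.2 j) j i z ^ 2)) *
           √(2 * ∑ j ∈ S, ∑ i ∈ S, exU n (nuG lam η c) b cB cF a x (fun z =>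
            cxU n (nuG lam η c) b cB cF a x (Kset S BL FL)
            (avU n (nuG lam η c) b cB cF a (fun w => sp w.2 j * sp w.2 i)) z ^ 2)
             + 2 * (S.card : ℝ) ^ 2 * exU n (nuG lam η c) b cB cF a x
              (avU n (nuG lam η c) b cB cF a (fun w => 1 - ins η (w.1 g0))))) := by
  have hη := hA.nn
  have hν := finite_nuG h hη c
  have h0 := nuG_ne h hη c
  have hG := gmU (n := n) b cB cF η hν h0 hA
  have hMS := msU (n := n) (b := b) (cB := cB) (cF := cF) hη hM
  have hw := H347.wt hG 1 x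
  have hn : 0 < n := Nat.pos_of_ne_zero fun h => by subst h; exact i0.elim0
  have hn' : (0 : ℝ) < n := by exact_mod_cast hn
  have hr : Measurable (rG η g0) := (measurable_al η).comp (measurable_pi_apply g0)
  have bt : ∀ j : Fin n, Bm fun w : (G → ℝ) × Xs n => sp w.2 j := fun j => bm_spU fun σ => sp σ j
  have bM : ∀ j : Fin n, BM (cx (g1 (Co n LB LF)) (Kset S BL FL)
      (Zxm (muU (nuG lam η c) n) 1 (SU b cB cF a) x)
      (avm (muU (nuG lam η c) n) 1 (SU b cB cF a) (fun w => rG η g0 w.1 * sp w.2 j))) := fun j =>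
    hw.bm_cx _ (H347.bm hG 1 (hMS.ba.mul (bt j)))
  have k1 := i2R_U (n := n) hν h0 b cB cF hA hr hη (fun θ => abs_al_sub hη (θ g0)) hx0 hx.le r0
    BL FL hS hi0 hne
  have k2 := ggr_U (b := b) (cB := cB) h hA hM hs2 hn hx hc BL FL S
  have e1 : exU n (nuG lam η c) b cB cF a x (H615.m2 S (fun j =>
          cxU n (nuG lam η c) b cB cF a x (Kset S BL FL)
            (avU n (nuG lam η c) b cB cF a (fun w => rG η g0 w.1 * sp w.2 j)))) =
      ∑ j ∈ S, exU n (nuG lam η c) b cB cF a x (fun z =>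
            cxU n (nuG lam η c) b cB cF a x (Kset S BL FL)
            (avU n (nuG lam η c) b cB cF a (fun w => rG η g0 w.1 * sp w.2 j)) z ^ 2) :=
    hw.ex_sum S fun j _ => (bM j).sq
  rw [← e1] at k2
  set q := √(exU n (nuG lam η c) b cB cF a x (H615.m2 S (fun j =>
          cxU n (nuG lam η c) b cB cF a x (Kset S BL FL)
            (avU n (nuG lam η c) b cB cF a (fun w => rG η g0 w.1 * sp w.2 j))))) with hq
  have hq0 : 0 ≤ q := Real.sqrt_nonneg _
  -- the pair functions with the indicator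
  have bI1 : Bm fun w : (G → ℝ) × Xs n => 1 - ins η (w.1 g0) := (Bm.const 1).sub hMS.bI
  have hp : ∑ j ∈ S, ∑ i ∈ S, exU n (nuG lam η c) b cB cF a x (fun z =>
            cxU n (nuG lam η c) b cB cF a x (Kset S BL FL)
            (avU n (nuG lam η c) b cB cF a
              (fun w => sp w.2 j * ins η (w.1 g0) * sp w.2 i)) z ^ 2) ≤
      2 * ∑ j ∈ S, ∑ i ∈ S, exU n (nuG lam η c) b cB cF a x (fun z =>
            cxU n (nuG lam η c) b cB cF a x (Kset S BL FL)
            (avU n (nuG lam η c) b cB cF a (fun w => sp w.2 j * sp w.2 i)) z ^ 2)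
             + 2 * (S.card : ℝ) ^ 2 * exU n (nuG lam η c) b cB cF a x
              (avU n (nuG lam η c) b cB cF a (fun w => 1 - ins η (w.1 g0))) := by
    have p1 : ∀ j ∈ S, ∀ i ∈ S, exU n (nuG lam η c) b cB cF a x (fun z =>
            cxU n (nuG lam η c) b cB cF a x (Kset S BL FL)
            (avU n (nuG lam η c) b cB cF a
              (fun w => sp w.2 j * ins η (w.1 g0) * sp w.2 i)) z ^ 2) ≤
        2 * exU n (nuG lam η c) b cB cF a x (fun z =>
            cxU n (nuG lam η c) b cB cF a x (Kset S BL FL)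
            (avU n (nuG lam η c) b cB cF a (fun w => sp w.2 j * sp w.2 i)) z ^ 2)
          + 2 * exU n (nuG lam η c) b cB cF a x
              (avU n (nuG lam η c) b cB cF a (fun w => 1 - ins η (w.1 g0))) := by
      intro j _ i _
      have b1 := (hw.bm_cx (Kset S BL FL) (H347.bm hG 1 (((bt j).mul hMS.bI).mul (bt i)))).sq
      have b2 := (hw.bm_cx (Kset S BL FL) (H347.bm hG 1 ((bt j).mul (bt i)))).sq
      have b3 := hw.bm_cx (Kset S BL FL) (H347.bm hG 1 bI1)
      have h5 := hw.ex_mono b1 (((BM.const 2).mul b2).add ((BM.const 2).mul b3)) fun z =>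
        cx_I_le hG hMS bt (fun j w => abs_sp w.2 j) (Kset S BL FL) j i z
      rw [hw.ex_add ((BM.const 2).mul b2) ((BM.const 2).mul b3), hw.ex_const_mul,
        hw.ex_const_mul, ex_cx' hw (H347.bm hG 1 bI1)] at h5
      exact h5
    refine (Finset.sum_le_sum fun j hj => Finset.sum_le_sum fun i hi => p1 j hj i hi).trans
      (le_of_eq ?_)
    simp only [Finset.sum_add_distrib, Finset.sum_const, nsmul_eq_mul, ← Finset.mul_sum]
    ring
  set Y := √(∑ j ∈ S, ∑ i ∈ S, exU n (nuG lam η c) b cB cF a x (fun z =>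
            cxU n (nuG lam η c) b cB cF a x (Kset S BL FL)
            (avU n (nuG lam η c) b cB cF a
              (fun w => sp w.2 j * ins η (w.1 g0) * sp w.2 i)) z ^ 2)) with hY
  have hY' := Real.sqrt_le_sqrt hp
  set X := √(∑ j ∈ S, ∑ i ∈ S, exU n (nuG lam η c) b cB cF a x (fun z =>
            Xr (muU (nuG lam η c) n) (SU b cB cF a) x (Kset S BL FL) (fun (i : Fin n) w => sp w.2 i)
              (fun w => rG η g0 w.1) (fun (j : Fin n) w => sp w.2 j) j i z ^ 2)) with hX
  have hX0 : 0 ≤ X := Real.sqrt_nonneg _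
  have hXY := mul_le_mul_of_nonneg_left (mul_le_mul_of_nonneg_left hY' hX0)
    (by positivity : (0 : ℝ) ≤ 1 / n)
  -- the factor `1 - x`
  set t := √(S.card * ((|r0| + 1) * (1 + η)) ^ 2 * exU n (nuG lam η c) b cB cF a x
              (avU n (nuG lam η c) b cB cF a (fun w => 1 - ins η (w.1 g0)))) with ht
  have ht0 : 0 ≤ t := Real.sqrt_nonneg _
  have h6 : (1 - x) * t * q ≤ t * q := by
    refine mul_le_mul_of_nonneg_right ?_ hq0
    exact mul_le_of_le_one_left ht0 (by linarith)
  rw [abs_le] at k1 ⊢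
  have h7 := abs_nonneg (∑ j ∈ S, exU n (nuG lam η c) b cB cF a x (fun z =>
          cxU n (nuG lam η c) b cB cF a x (Kset S BL FL)
            (avU n (nuG lam η c) b cB cF a (fun w => rG η g0 w.1 * sp w.2 j)) z *
          Va (muU (nuG lam η c) n) 1 r0 (SU b cB cF a) (fun (i : Fin n) w => sp w.2 i)
            (fun w => rG η g0 w.1) (fun (j : Fin n) w => sp w.2 j) j z))
  set V := ∑ j ∈ S, exU n (nuG lam η c) b cB cF a x (fun z =>
          cxU n (nuG lam η c) b cB cF a x (Kset S BL FL)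
            (avU n (nuG lam η c) b cB cF a (fun w => rG η g0 w.1 * sp w.2 j)) z *
          Va (muU (nuG lam η c) n) 1 r0 (SU b cB cF a) (fun (i : Fin n) w => sp w.2 i)
            (fun w => rG η g0 w.1) (fun (j : Fin n) w => sp w.2 j) j z) with hV
  have hx1 : 0 ≤ 1 - x := by linarith
  have h8 : (1 - x) * V ≤ (1 - x) * |V| := mul_le_mul_of_nonneg_left (le_abs_self _) hx1
  have h9 : -((1 - x) * |V|) ≤ (1 - x) * V := by
    have := mul_le_mul_of_nonneg_left (neg_abs_le V) hx1
    linarith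
  have h10 := k1.1
  have h11 := k1.2
  constructor
  · nlinarith
  · nlinarith

end Vale.Agent.P146.H420B
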