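import Mathlib
import Vale.Agent.P146.H420B.MuVar

/-!
# P146, response at a small field, variational side (B), part 2: existence of the pinned minimiser,
stationarity
-/

set_option linter.all false

open MeasureTheory ProbabilityTheory Filter Topology Set

namespace Vale.Agent.P146.H420B.Mu

open Vale.Agent.P157.Par
open Vale.Agent.P146.Gap
open Vale.Agent.P146.Pw2
open Vale.Agent.P367.Cl
open Vale.Agent.P146.Lb

lemma SKm_congr {b ν : ℝ} {n : ℕ} {r r' : ℕ → ℝ} (h : ∀ l ≤ n, r l = r' l) :
    SKm b ν n r = SKm b ν n r' := by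
  unfold SKm Lin
  rw [minb_SKr_congr h]
  congr 2
  exact Finset.sum_congr rfl fun l hl => by
    rw [h l (Nat.lt_succ_iff.1 (Finset.mem_range.1 hl))]

/-- existence of a minimiser -/
theorem exists_minV {b B T : ℝ} (ν : ℝ) {n d : ℕ} (hn : 0 < n) (hd : d ≤ n)
    (hT0 : 0 ≤ T) (hTB : T ≤ B ^ 2) : ∃ r, IsMinV b B ν T n d r := by
  have hm := gm_exponents n
  obtain ⟨emono, e0, e1⟩ := minb_exp hm
  set X : Set (Fin (n + 1) → ℝ) := {x | (BPath B n (minbFin n x) ∧
    ∀ l < d, minbFin n x l = 0) ∧ minbFin n x n = T} with hX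
  have hclosed : IsClosed X := by
    have h1 : X = (({x | minbFin n x 0 = 0} ∩ ({x | 0 ≤ minbFin n x 0} ∩
        (⋂ l : ℕ, ⋂ _ : l < n, {x | minbFin n x l ≤ minbFin n x (l + 1)})) ∩
        {x | minbFin n x n ≤ B ^ 2}) ∩ (⋂ l : ℕ, ⋂ _ : l < d, {x | minbFin n x l = 0})) ∩
        {x | minbFin n x n = T} := by
      ext x
      simp only [hX, BPath, Vale.Agent.P157.Par.Path, Set.mem_ofPred_eq, mem_inter_iff, mem_iInter]
      tauto
    rw [h1]
    refine IsClosed.inter (IsClosed.inter (IsClosed.inter (IsClosed.inter ?_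
      (IsClosed.inter ?_ ?_)) ?_) ?_) (isClosed_eq (minb_fin_cont n n) continuous_const)
    · exact isClosed_eq (minb_fin_cont n 0) continuous_const
    · exact isClosed_le continuous_const (minb_fin_cont n 0)
    · exact isClosed_iInter fun l => isClosed_iInter fun _ =>
        isClosed_le (minb_fin_cont n l) (minb_fin_cont n (l + 1))
    · exact isClosed_le (minb_fin_cont n n) continuous_const
    · exact isClosed_iInter fun l => isClosed_iInter fun _ =>
        isClosed_eq (minb_fin_cont n l) continuous_const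
  have hsub : X ⊆ Icc (fun _ => 0) (fun _ => B ^ 2) := by
    intro x hx
    obtain ⟨⟨⟨h0, ⟨-, h1⟩, h2⟩, -⟩, -⟩ := hx
    have key : ∀ i : Fin (n + 1), minbFin n x i = x i := fun i => by
      unfold minbFin; rw [dif_pos i.2]
    constructor
    · intro i
      have := minb_mono h1 (Nat.zero_le i) (by omega)
      rw [h0, key i] at this
      exact this
    · intro i
      have := minb_mono h1 (i := i) (j := n) (by omega) le_rfl
      rw [key i] at this
      exact this.trans h2
  have hcomp : IsCompact X := (isCompact_Icc).of_isClosed_subset hclosed hsub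
  have hne : X.Nonempty := by
    refine ⟨fun i => if (i : ℕ) = n then T else 0, ?_⟩
    have e0 : ∀ l, minbFin n (fun i => if (i : ℕ) = n then T else 0) l =
        if l = n then T else 0 := by
      intro l; unfold minbFin
      by_cases h : l < n + 1
      · rw [dif_pos h]
      · rw [dif_neg h, if_neg (by omega)]
    have e1 : minbFin n (fun i => if (i : ℕ) = n then T else 0) =
        fun l => if l = n then T else 0 := funext e0
    rw [hX, Set.mem_ofPred_eq, e1]
    refine ⟨⟨⟨if_neg (by omega), ⟨?_, fun l hl => ?_⟩, ?_⟩, fun l hl => if_neg (by omega)⟩,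
      if_pos rfl⟩
    · show 0 ≤ if (0 : ℕ) = n then T else 0
      split_ifs
      · exact hT0
      · exact le_rfl
    · show (if l = n then T else 0) ≤ if l + 1 = n then T else 0
      rw [if_neg (by omega)]
      split_ifs
      · exact hT0
      · exact le_rfl
    · show (if n = n then T else 0) ≤ B ^ 2
      rw [if_pos rfl]
      exact hTB
  have hlip : LipschitzOnWith (Real.toNNReal n)
      (fun x : Fin (n + 1) → ℝ => cascade (gm n) (minbFin n x) n lc 0) X := by
    apply LipschitzOnWith.of_dist_le_mul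
    intro x hx y hy
    have h1 := minb_cascade_lip (c := n) (fun l h1 h2 => e0 l h1 (by omega))
      (fun l h1 h2 => e1 l (by omega)) hx.1.1.2.1.2 hy.1.1.2.1.2 adm_lc adm_lc (e := 0)
      (fun z => by simp) 0
    rw [Real.dist_eq]
    refine h1.trans ?_
    rw [zero_add, Real.coe_toNNReal _ (Nat.cast_nonneg n)]
    have h2 : ∑ l ∈ Finset.range n, |(minbFin n x (l + 1) - minbFin n x l)
        - (minbFin n y (l + 1) - minbFin n y l)| ≤ ∑ l ∈ Finset.range n, 2 * dist x y := by
      refine Finset.sum_le_sum fun l _ => ?_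
      have a1 := minb_fin_dist n (l + 1) x y
      have a2 := minb_fin_dist n l x y
      calc _ = |(minbFin n x (l + 1) - minbFin n y (l + 1))
            - (minbFin n x l - minbFin n y l)| := by congr 1; ring
        _ ≤ _ := abs_sub _ _
        _ ≤ _ := by linarith
    rw [Finset.sum_const, Finset.card_range, nsmul_eq_mul] at h2
    linarith
  have hcont : ContinuousOn (fun x : Fin (n + 1) → ℝ => SKm b ν n (minbFin n x)) X := by
    have h1 : ContinuousOn (fun x : Fin (n + 1) → ℝ =>
        cascade (gm n) (minbFin n x) n lc 0 - minbFin n x n / 2 + b ^ 2 / 4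
          + (∑ l ∈ Finset.range (n + 1), (gm n (l + 1) - gm n l) * minbFin n x l ^ 2) /
            (4 * b ^ 2) - ν / (2 * b ^ 2) *
            ∑ l ∈ Finset.range (n + 1), (gm n (l + 1) - gm n l) * minbFin n x l) X := by
      refine ContinuousOn.sub (ContinuousOn.add (ContinuousOn.add
        (ContinuousOn.sub hlip.continuousOn ?_) ?_) ?_) ?_
      · exact ((minb_fin_cont n n).div_const 2).continuousOn
      · exact continuousOn_const
      · refine (Continuous.div_const (continuous_finsetSum _ fun l _ => ?_) _).continuousOn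
        exact continuous_const.mul ((minb_fin_cont n l).pow 2)
      · refine (Continuous.mul continuous_const (continuous_finsetSum _ fun l _ => ?_)).continuousOn
        exact continuous_const.mul (minb_fin_cont n l)
    refine h1.congr fun x hx => ?_
    simp only [SKm, SKr, Lin]
    rw [minb_spin hx.1.1.1]
  obtain ⟨x, hx, hxm⟩ := hcomp.exists_isMinOn hne hcont
  refine ⟨minbFin n x, hx.1.1, hx.1.2, hx.2, fun r' hr' hr0 hrT => ?_⟩
  have h1 : ∀ l ≤ n, r' l = minbFin n (fun i => r' i) l := fun l hl => by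
    unfold minbFin; rw [dif_pos (by omega)]
  have h2 : BPath B n (minbFin n (fun i => r' i)) := by
    obtain ⟨a0, ⟨a1, a2⟩, a3⟩ := hr'
    refine ⟨by rw [← h1 0 (by omega)]; exact a0, ⟨by rw [← h1 0 (by omega)]; exact a1,
      fun l hl => ?_⟩, by rw [← h1 n le_rfl]; exact a3⟩
    rw [← h1 l (by omega), ← h1 (l + 1) (by omega)]; exact a2 l hl
  have h3 : ∀ l < d, minbFin n (fun i => r' i) l = 0 := fun l hl => by
    rw [← h1 l (by omega)]; exact hr0 l hl
  rw [SKm_congr h1]
  exact hxm (a := fun i => r' i) ⟨⟨h2, h3⟩, by rw [← h1 n le_rfl]; exact hrT⟩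

/-- stationarity: at the levels `d ≤ l < n` the minimiser is fixed by the overlap map plus `ν` -/
theorem statV {b B ν T : ℝ} (hb : 0 < b) (hν : 0 ≤ ν) {n d : ℕ} {r : ℕ → ℝ}
    (hd : 1 ≤ d) (hT : b ^ 2 + ν ≤ T) (h : IsMinV b B ν T n d r) :
    ∀ l, d ≤ l → l < n → r l = b ^ 2 * spR n (gm n) r l + ν := by
  obtain ⟨hr, hr0, hrT, hmin⟩ := h
  have hm := gm_exponents n
  have hb2 : 0 < b ^ 2 := by positivity
  have hspn : ∀ l ≤ n, 0 ≤ spR n (gm n) r l := fun l hl => spR_nonneg hm hr.2.1 hl
  have hsp1 : ∀ l ≤ n, spR n (gm n) r l ≤ 1 := fun l hl => (spR_lt_one hm hr.2.1 hl).le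
  have hspm : ∀ l < n, spR n (gm n) r l ≤ spR n (gm n) r (l + 1) := fun l hl =>
    spR_mono hm hr.2.1 hl
  -- the competitor
  obtain ⟨r', hr'⟩ : ∃ r' : ℕ → ℝ, r' = fun l => if l < d then 0 else
      if l < n then b ^ 2 * spR n (gm n) r l + ν else T := ⟨_, rfl⟩
  have e1 : ∀ l, l < d → r' l = 0 := fun l hl => by rw [hr']; exact if_pos hl
  have e2 : ∀ l, d ≤ l → l < n → r' l = b ^ 2 * spR n (gm n) r l + ν := fun l h1 h2 => by
    rw [hr']; simp only; rw [if_neg (by omega), if_pos h2]
  have hT0 : 0 ≤ T := by linarith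
  by_cases hdn : n < d
  · intro l h1 h2; omega
  have e3 : r' n = T := by rw [hr']; simp only; rw [if_neg hdn, if_neg (lt_irrefl n)]
  have hT' : ∀ l < n, b ^ 2 * spR n (gm n) r l + ν ≤ T := fun l hl => by
    have := mul_le_mul_of_nonneg_left (hsp1 l hl.le) hb2.le
    linarith
  have hpath : Path n r' := by
    refine ⟨by rw [e1 0 (by omega)], fun l hl => ?_⟩
    by_cases h1 : l < d
    · rw [e1 l h1]
      by_cases h2 : l + 1 < d
      · rw [e1 _ h2]
      · by_cases h3 : l + 1 < n
        · rw [e2 (l + 1) (by omega) h3]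
          have := mul_nonneg hb2.le (hspn (l + 1) (by omega))
          linarith
        · have : l + 1 = n := by omega
          rw [this, e3]
          exact hT0
    · rw [e2 l (by omega) hl]
      by_cases h3 : l + 1 < n
      · rw [e2 (l + 1) (by omega) h3]
        have := mul_le_mul_of_nonneg_left (hspm l hl) hb2.le
        linarith
      · have : l + 1 = n := by omega
        rw [this, e3]
        exact hT' l hl
  have hP : BPath B n r' := ⟨e1 0 (by omega), hpath, by rw [e3, ← hrT]; exact hr.2.2⟩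
  have h2 := hmin r' hP e1 e3
  have ht := tangent_path hm hr.2.1 hpath
  -- the gain
  have key : ∀ l ∈ Finset.range (n + 1),
      (gm n (l + 1) - gm n l) * r' l ^ 2 / (4 * b ^ 2) -
        1 / 2 * ((gm n (l + 1) - gm n l) * spR n (gm n) r l * (r' l - r l)) -
        ν / (2 * b ^ 2) * ((gm n (l + 1) - gm n l) * r' l) =
      (gm n (l + 1) - gm n l) * r l ^ 2 / (4 * b ^ 2) -
        ν / (2 * b ^ 2) * ((gm n (l + 1) - gm n l) * r l) -
        (gm n (l + 1) - gm n l) * (r' l - r l) ^ 2 / (4 * b ^ 2) := by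
    intro l hl
    have hln : l ≤ n := Nat.lt_succ_iff.1 (Finset.mem_range.1 hl)
    by_cases h1 : l < d
    · rw [e1 l h1, hr0 l h1]
      ring
    · by_cases h3 : l < n
      · have e4 : spR n (gm n) r l = (r' l - ν) / b ^ 2 := by
          rw [e2 l (by omega) h3]; field_simp; ring
        rw [e4]
        field_simp
        ring
      · have : l = n := by omega
        rw [this, e3, hrT]
        ring
  have hsum := Finset.sum_congr rfl key
  rw [Finset.sum_sub_distrib, Finset.sum_sub_distrib, Finset.sum_sub_distrib,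
    Finset.sum_sub_distrib, ← Finset.mul_sum, ← Finset.mul_sum, ← Finset.mul_sum,
    ← Finset.sum_div, ← Finset.sum_div, ← Finset.sum_div] at hsum
  unfold SKm SKr Lin at h2
  have hp : ∀ l ∈ Finset.range (n + 1), 0 ≤ (gm n (l + 1) - gm n l) * (r' l - r l) ^ 2 :=
    fun l hl => mul_nonneg
      (sub_pos.2 (hm.2.2 l (Nat.lt_succ_iff.1 (Finset.mem_range.1 hl)))).le (sq_nonneg _)
  have h3 : (∑ l ∈ Finset.range (n + 1), (gm n (l + 1) - gm n l) * (r' l - r l) ^ 2) = 0 := by
    refine le_antisymm ?_ (Finset.sum_nonneg hp)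
    have h4 : (∑ l ∈ Finset.range (n + 1), (gm n (l + 1) - gm n l) * (r' l - r l) ^ 2) /
        (4 * b ^ 2) ≤ 0 := by
      linarith
    by_contra h5
    push Not at h5
    exact absurd (div_pos h5 (show 0 < 4 * b ^ 2 by positivity)) (not_lt.2 h4)
  intro l hdl hl
  have h5 := (Finset.sum_eq_zero_iff_of_nonneg hp).1 h3 l (Finset.mem_range.2 (by omega))
  have h6 : 0 < gm n (l + 1) - gm n l := sub_pos.2 (hm.2.2 l hl.le)
  rcases mul_eq_zero.1 h5 with h7 | h7
  · exact absurd h7 h6.ne'
  · have := pow_eq_zero_iff (n := 2) (by norm_num) |>.1 h7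
    rw [e2 l hdl hl] at this
    linarith

end Vale.Agent.P146.H420B.Mu
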