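import Mathlib
import Vale.Agent.P146.H420B.MuMin

/-!
# P146, response at a small field, variational side (B), part 3: marginality on every block

-/

set_option linter.all false

open MeasureTheory ProbabilityTheory Filter Topology Set

namespace Vale.Agent.P146.H420B.Mu

open Vale.Agent.P157.Par
open Vale.Agent.P146.Gap
open Vale.Agent.P146.Pw2
open Vale.Agent.P367.Cl
open Vale.Agent.P146.Lb

theorem unifV {b : ℝ} (B : ℝ) (hb : 1 < b) (hB : 0 < B) : ∃ C : ℝ, 1 ≤ C ∧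
    ∀ (n d : ℕ) (ν T : ℝ) (r : ℕ → ℝ) (l : ℕ) (e : ℝ), 0 ≤ ν → 1 ≤ d → b ^ 2 + ν ≤ T →
    IsMinV b B ν T n d r → 1 ≤ l → d ≤ l → l + 1 < n → r l < r (l + 1) → 0 < e →
      1 ≤ e ^ 4 * (n + 1) →
      ∀ t ∈ Icc 0 (r (l + 1) - r l), |Mb n (gm n) r l t - 1 / b ^ 2| ≤ C * e := by
  have hb0 : 0 < b := by linarith
  have hb2 : 0 < b ^ 2 := by positivity
  have hB2 : 0 < B ^ 2 := by positivity
  obtain ⟨C1, hC1, h1⟩ := M1b_bd B
  obtain ⟨C2, hC2, h2⟩ := var_upM (b := b) B hb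
  obtain ⟨C3, hC3, h3⟩ := var_downM (b := b) B hb
  obtain ⟨C, hCd⟩ : ∃ C, C = C1 + C2 + C3 := ⟨_, rfl⟩
  have hC0 : 1 ≤ C := by rw [hCd]; linarith
  obtain ⟨C', hC', hblk⟩ := real_block (C := C) (S := B ^ 2) hC0 hB2
  refine ⟨1 + 4 * C1 * C' * B ^ 2, by
    have : 0 ≤ 4 * C1 * C' * B ^ 2 := by positivity
    linarith, fun n d ν T r l e hν hd1' hT hr hl1 hdl hl' hlt he hen t₀ ht₀ => ?_⟩
  have hl : l < n := by omega
  have hm := gm_exponents n
  have hBP := hr.1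
  have hpath := hBP.2.1
  have hr0 := hBP.1
  have hfix := statV hb0 hν hd1' hT hr
  have hn0 : (0 : ℝ) < (n : ℝ) + 1 := by positivity
  have hrl : 0 ≤ r l := by
    have := gapn_path_le hpath (Nat.zero_le l) hl.le
    rwa [hr0] at this
  have hrl1 : r (l + 1) ≤ B ^ 2 := (gapn_path_le hpath hl le_rfl).trans hBP.2.2
  obtain ⟨V, hV⟩ : ∃ V, V = r (l + 1) - r l := ⟨_, rfl⟩
  have hV0 : 0 < V := by rw [hV]; linarith
  have hVS : V ≤ B ^ 2 := by rw [hV]; linarith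
  have hd0 : 0 ≤ 1 / ((n : ℝ) + 1) := by positivity
  have hd1 : 1 / ((n : ℝ) + 1) ≤ 1 := by
    rw [div_le_one hn0]
    have : (0 : ℝ) ≤ n := Nat.cast_nonneg n
    linarith
  have hRc := Rb_cont hm hpath hl
  have hMc := Mb_cont hm hpath hl
  have hdn := h3 n d ν T r l hr hl' (by omega)
  have hup := h2 n d ν T r l hr hl1 hdl hl
  have hrd := fun t ht => Rb_deriv (t := t) hm hpath hl ht
  have hmd := fun t ht => Mb_deriv (t := t) hm hpath hl ht
  have hm1d := fun t ht => M1b_deriv (t := t) hm hpath hl ht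
  have hm2 := fun t ht => M2b_nonneg (t := t) hm hpath hr0 hl ht
  have hbd := h1 n (gm n) r hm hBP l hl
  have hf0' := Rb_zero hm hpath hl
  have hfV' := Rb_last hm hpath hl
  have hlip := fun s t hs ht hst => luni_lip (s := s) (t := t) hm hpath hl hbd hs ht hst
  rw [← hV] at hRc hMc hdn hup hrd hmd hm1d hm2 hbd hfV' hlip ht₀
  have hfc : ContinuousOn (fun t => Rb n (gm n) r l t - (r l + t - ν) / b ^ 2) (Icc 0 V) :=
    hRc.sub (by fun_prop)
  have hkc : ContinuousOn (fun t => Mb n (gm n) r l t - 1 / b ^ 2) (Icc 0 V) :=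
    hMc.sub continuousOn_const
  have hfd : ∀ t ∈ Ioo 0 V, HasDerivAt (fun t => Rb n (gm n) r l t - (r l + t - ν) / b ^ 2)
      (Mb n (gm n) r l t - 1 / b ^ 2) t := by
    intro t ht
    have e1 : HasDerivAt (fun t : ℝ => (r l + t - ν) / b ^ 2) (1 / b ^ 2) t :=
      (((hasDerivAt_id t).const_add (r l)).sub_const ν).div_const _
    exact (hrd t ht).sub e1
  have hkd : ∀ t ∈ Ioo 0 V, HasDerivAt (fun t => Mb n (gm n) r l t - 1 / b ^ 2)
      (M1b n (gm n) r l t) t := fun t ht => (hmd t ht).sub_const _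
  have hf0 : Rb n (gm n) r l 0 - (r l + 0 - ν) / b ^ 2 = 0 := by
    rw [hf0', add_zero]
    have := hfix l hdl hl
    rw [sub_eq_zero, eq_div_iff hb2.ne']
    linarith
  have hfV : Rb n (gm n) r l V - (r l + V - ν) / b ^ 2 = 0 := by
    have e : r l + V = r (l + 1) := by rw [hV]; ring
    rw [hfV', e]
    have := hfix (l + 1) (by omega) hl'
    rw [sub_eq_zero, eq_div_iff hb2.ne']
    linarith
  have hV2 : 0 ≤ V ^ 2 := sq_nonneg V
  have hint := hblk V (1 / ((n : ℝ) + 1)) (fun t => Rb n (gm n) r l t - (r l + t - ν) / b ^ 2)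
    (fun t => Mb n (gm n) r l t - 1 / b ^ 2) (M1b n (gm n) r l) (M2b n (gm n) r l) hV0 hVS hd0 hd1
    hfc hkc hfd hkd hm1d (fun t ht => hm2 t ⟨ht.1.le, ht.2.le⟩ (by linarith [ht.1]))
    (fun t ht => (hbd t ⟨ht.1.le, ht.2.le⟩).trans (by rw [hCd]; linarith)) hf0 hfV ?_ ?_
  · -- a zero of `k`
    obtain ⟨z, hz, hkz⟩ := exists_hasDerivAt_eq_zero hV0 hfc (by rw [hf0, hfV]) hfd
    have hL : ∀ s ∈ Icc 0 V, ∀ t ∈ Icc 0 V,
        |(Mb n (gm n) r l t - 1 / b ^ 2) - (Mb n (gm n) r l s - 1 / b ^ 2)| ≤ C1 * |t - s| := by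
      intro s hs t ht
      have e1 : (Mb n (gm n) r l t - 1 / b ^ 2) - (Mb n (gm n) r l s - 1 / b ^ 2) =
          Mb n (gm n) r l t - Mb n (gm n) r l s := by ring
      rw [e1]
      rcases le_total s t with h | h
      · rw [abs_of_nonneg (sub_nonneg.2 h)]
        exact hlip s t hs ht h
      · rw [abs_sub_comm, abs_sub_comm t s, abs_of_nonneg (sub_nonneg.2 h)]
        exact hlip t s ht hs h
    have hsq := luni_real (k := fun t => Mb n (gm n) r l t - 1 / b ^ 2) (by linarith) hkc hL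
      ⟨z, ⟨hz.1.le, hz.2.le⟩, hkz⟩ hint t₀ ht₀
    have hse : √(1 / ((n : ℝ) + 1)) ≤ e ^ 2 := by
      refine Real.sqrt_le_iff.2 ⟨by positivity, ?_⟩
      rw [div_le_iff₀ hn0, ← pow_mul]
      exact hen
    have h4 : 4 * C1 * (C' * √(1 / ((n : ℝ) + 1)) * V) ≤ 4 * C1 * C' * B ^ 2 * e ^ 2 := by
      have h5 : C' * √(1 / ((n : ℝ) + 1)) * V ≤ C' * e ^ 2 * B ^ 2 := by
        refine mul_le_mul (mul_le_mul_of_nonneg_left hse (by linarith)) hVS hV0.le ?_
        positivity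
      have h6 := mul_le_mul_of_nonneg_left h5 (show 0 ≤ 4 * C1 by linarith)
      refine h6.trans (le_of_eq ?_)
      ring
    have h7 := hsq.trans h4
    obtain ⟨Y, hY⟩ : ∃ Y, Y = 4 * C1 * C' * B ^ 2 := ⟨_, rfl⟩
    rw [← hY] at h7 ⊢
    have hY0 : 0 ≤ Y := by rw [hY]; positivity
    refine abs_le_of_sq_le_sq ?_ (by positivity)
    refine h7.trans ?_
    rw [mul_pow]
    refine mul_le_mul_of_nonneg_right ?_ (by positivity)
    nlinarith
  · intro t ht
    refine (hup t ht).trans ?_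
    have e1 : t ^ 2 ≤ V ^ 2 := pow_le_pow_left₀ ht.1 ht.2 2
    have e2 : C2 / ((n : ℝ) + 1) * t ^ 2 ≤ C2 / ((n : ℝ) + 1) * V ^ 2 :=
      mul_le_mul_of_nonneg_left e1 (by positivity)
    refine e2.trans ?_
    have e3 : C2 / ((n : ℝ) + 1) * V ^ 2 = C2 * (1 / ((n : ℝ) + 1) * V ^ 2) := by ring
    rw [e3, mul_assoc C]
    refine mul_le_mul_of_nonneg_right ?_ (by positivity)
    rw [hCd]
    linarith
  · intro t ht
    refine le_trans ?_ (hdn t ht)
    rw [neg_le_neg_iff]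
    have e1 : (V - t) ^ 2 ≤ V ^ 2 := pow_le_pow_left₀ (by linarith [ht.2]) (by linarith [ht.1]) 2
    have e2 : C3 / ((n : ℝ) + 1) * (V - t) ^ 2 ≤ C3 / ((n : ℝ) + 1) * V ^ 2 :=
      mul_le_mul_of_nonneg_left e1 (by positivity)
    refine e2.trans ?_
    have e3 : C3 / ((n : ℝ) + 1) * V ^ 2 = C3 * (1 / ((n : ℝ) + 1) * V ^ 2) := by ring
    rw [e3, mul_assoc C]
    refine mul_le_mul_of_nonneg_right ?_ (by positivity)
    rw [hCd]
    linarith


end Vale.Agent.P146.H420B.Mu
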